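import Vale.Agent.P296.Geometry.Main

/-!
A charted space structure on `X m` for every `m`, agreeing with `chartedSpace` for `1 ≤ m`.
-/

open Set Topology
open scoped ContDiff

noncomputable section

namespace Vale.Agent.P296.Geo

lemma exists_sheet_zero {b : Fin 2} {y0 : Pt} (h : OnCurve 0 b y0) :
    ∃ S : Sheet 0 b, y0 ∈ S.O := by
  obtain ⟨h1, h2⟩ := h
  have hv : y0.2.2 ≠ 0 := fun e => by rw [e] at h2; norm_num at h2
  refine ⟨{
    D := univ
    isOpen_D := isOpen_univ
    par := fun t => (t, 0, y0.2.2)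
    smooth_par := (contDiff_id.prodMk (contDiff_const.prodMk contDiff_const)).contDiffOn
    O := {y | y.2.2 / y0.2.2 ∈ sector 2}
    isOpen_O := (isOpen_sector 2).preimage (by fun_prop)
    coord := fun y => y.1
    smooth_coord := contDiff_fst.contDiffOn
    disj := fun y hy hy' => by
      simp only [flip, mem_ofPred_eq, neg_div] at hy'
      exact not_neg_mem_sector_two hy hy'
    left := fun t _ => ⟨⟨by simp, by simpa using h2⟩,
      by simp [div_self hv, one_mem_sector (show 1 ≤ 2 by norm_num)], rfl⟩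
    right := fun y hy hyO => ?_ }, ?_⟩
  · refine ⟨mem_univ _, Prod.ext rfl (Prod.ext ?_ ?_)⟩
    · have := hy.1; simp at this; exact this.symm
    · have h3 := pow_mem_slitPlane (k := 2) (by norm_num) hyO
      have h4 := pow_mem_slitPlane (k := 2) (by norm_num) (one_mem_sector (show 1 ≤ 2 by norm_num))
      rw [div_pow, hy.2, h2, pow_zero, pow_zero, div_self (show (1 + 1 : ℂ) ≠ 0 by norm_num)] at h3
      rw [one_pow] at h4
      have h5 : y.2.2 / y0.2.2 = 1 := h3.2.symm.trans h4.2
      show y0.2.2 = y.2.2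
      rw [div_eq_one_iff_eq hv] at h5
      exact h5.symm
  · simp [div_self hv, one_mem_sector (show 1 ≤ 2 by norm_num)]

lemma exists_chart_zero (p : Rep 0) : ∃ c : RepChart 0, p.tuple ∈ c.O := by
  obtain ⟨a, ha⟩ : ∃ a, p.z a ≠ 0 := Function.ne_iff.1 p.hz
  obtain ⟨b, hb⟩ : ∃ b, p.s b ≠ 0 := Function.ne_iff.1 p.hs
  obtain ⟨S, hS⟩ := exists_sheet_zero (onCurve_nrm p hb)
  exact ⟨S.repChart a, ⟨ha, hb⟩, Or.inl hS⟩

/-- The structure for `m = 0`, used only as a filler. -/
@[reducible] def chartedSpaceZero : ChartedSpace (Cn 2) (X 0) where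
  atlas := range fun c : RepChart 0 => c.toOPH
  chartAt x := (exists_chart_zero (rep x)).choose.toOPH
  mem_chart_source x := ⟨rep x, (exists_chart_zero (rep x)).choose_spec, pt_rep x⟩
  chart_mem_atlas _ := ⟨_, rfl⟩

/-- A structure for every `m`. -/
@[reducible] def chartedSpaceAll : ∀ m : ℕ, ChartedSpace (Cn 2) (X m)
  | 0 => chartedSpaceZero
  | _ + 1 => chartedSpace (Nat.le_add_left 1 _)

theorem geomSpecAll : ∀ (m : ℕ), 1 ≤ m → @GeomSpec m (chartedSpaceAll m)
  | 0, h => absurd h (by norm_num)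
  | _ + 1, h => geomSpec h

end Vale.Agent.P296.Geo
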