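import Vale.Agent.P296.Geometry.Sheets

/-!
`X m` as a compact connected complex surface.
-/

open Set Topology Filter
open scoped ContDiff Manifold

noncomputable section

namespace Vale.Agent.P296.Geo

variable {m : ℕ}

/-- A chart around a point. -/
def chartOf (hm : 1 ≤ m) (x : X m) : RepChart m := (exists_chart hm (rep x)).choose

lemma mem_chartOf (hm : 1 ≤ m) (x : X m) : x ∈ (chartOf hm x).source :=
  ⟨rep x, (exists_chart hm (rep x)).choose_spec, pt_rep x⟩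

/-- The charted space structure. -/
@[reducible] def chartedSpace (hm : 1 ≤ m) : ChartedSpace (Cn 2) (X m) where
  atlas := range fun c : RepChart m => c.toOPH
  chartAt x := (chartOf hm x).toOPH
  mem_chart_source x := mem_chartOf hm x
  chart_mem_atlas x := ⟨_, rfl⟩

lemma isManifold (hm : 1 ≤ m) :
    letI := chartedSpace hm
    IsManifold 𝓘(ℂ, Cn 2) ω (X m) := by
  let _ := chartedSpace hm
  refine isManifold_of_contDiffOn _ _ _ ?_
  rintro _ _ ⟨c, rfl⟩ ⟨c', rfl⟩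
  simpa using! RepChart.contDiffOn_trans c c'

lemma local_lift (hm : 1 ≤ m) (x : X m) :
    letI := chartedSpace hm
    ∃ (U : Set (X m)) (L : X m → Rep m), IsOpen U ∧ x ∈ U ∧ (∀ y ∈ U, (L y).pt = y) ∧
      ContMDiffOn 𝓘(ℂ, Cn 2) 𝓘(ℂ, (Fin 2 → ℂ) × (Fin 2 → ℂ) × ℂ × ℂ) ω
        (fun y => (L y).tuple) U := by
  let _ := chartedSpace hm
  have := isManifold hm
  set c := chartOf hm x with hc
  refine ⟨c.source, fun y => c.L (c.coord y), c.isOpen_source, mem_chartOf hm x,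
    fun y hy => c.toOPH.left_inv hy, ?_⟩
  have h1 : ContMDiffOn 𝓘(ℂ, Cn 2) 𝓘(ℂ, Cn 2) ω c.coord c.source :=
    contMDiffOn_chart (I := 𝓘(ℂ, Cn 2)) (x := x)
  exact (c.smooth_L.contMDiffOn).comp h1 fun y hy => (c.toOPH.map_source hy)

lemma contMDiffOn_pt {E : Type} [NormedAddCommGroup E] [NormedSpace ℂ E] (hm : 1 ≤ m)
    {s : Set E} {f : E → Rep m} (hf : ContDiffOn ℂ ω (fun p => (f p).tuple) s) :
    letI := chartedSpace hm
    ContMDiffOn 𝓘(ℂ, E) 𝓘(ℂ, Cn 2) ω (fun p => (f p).pt) s := by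
  let _ := chartedSpace hm
  have := isManifold hm
  have hc : ContinuousOn (fun p => (f p).pt) s :=
    continuous_pt.comp_continuousOn ((isInducing_tuple.continuousOn_iff).2 hf.continuousOn)
  refine contMDiffOn_iff_target.2 ⟨hc, fun y => ?_⟩
  set c := chartOf hm y with hcdef
  have e1 : ((fun p => (f p).pt) ⁻¹' (extChartAt 𝓘(ℂ, Cn 2) y).source) = (fun p => (f p).pt) ⁻¹' c.source := by
    rw [extChartAt_source]; rfl
  rw [e1, contMDiffOn_iff_contDiffOn]
  refine (c.smooth_G.comp (hf.mono inter_subset_left) fun p hp => c.mem_source.1 hp.2).congr ?_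
  intro p hp
  show c.coord (f p).pt = c.G (f p).tuple
  exact c.coord_pt (c.mem_source.1 hp.2)

lemma affine (hm : 1 ≤ m) (W : Set ℂ) (u v : ℂ → ℂ) (hW : IsOpen W) (hu : DifferentiableOn ℂ u W)
    (hv : DifferentiableOn ℂ v W) (L : ℂ → ℂ → Rep m)
    (hL : ∀ z, ∀ s ∈ W, (L z s).tuple = (![1, z], ![1, s], u s, v s)) :
    letI := chartedSpace hm
    ContMDiffOn 𝓘(ℂ, ℂ × ℂ) 𝓘(ℂ, Cn 2) ω (fun p : ℂ × ℂ => (L p.1 p.2).pt)
      (Set.univ ×ˢ W) := by
  refine contMDiffOn_pt hm ?_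
  have hu' : ContDiffOn ℂ ω u W := (hu.analyticOnNhd hW).contDiffOn hW.uniqueDiffOn
  have hv' : ContDiffOn ℂ ω v W := (hv.analyticOnNhd hW).contDiffOn hW.uniqueDiffOn
  have hsnd : MapsTo (fun p : ℂ × ℂ => p.2) (Set.univ ×ˢ W) W := fun p hp => hp.2
  have h : ContDiffOn ℂ ω (fun p : ℂ × ℂ => ((![1, p.1], ![1, p.2], u p.2, v p.2) : Tup))
      (Set.univ ×ˢ W) := by
    refine (contDiffOn_pi.2 fun i => ?_).prodMk ((contDiffOn_pi.2 fun i => ?_).prodMk
      ((hu'.comp contDiffOn_snd hsnd).prodMk (hv'.comp contDiffOn_snd hsnd)))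
    · fin_cases i <;> simp <;> fun_prop
    · fin_cases i <;> simp <;> fun_prop
  exact h.congr fun p hp => hL p.1 p.2 hp.2

lemma exists_smul_of_cross {x y : Fin 2 → ℂ} (hx : x ≠ 0) (hy : y ≠ 0)
    (h : x 0 * y 1 = x 1 * y 0) : ∃ a : ℂ, a ≠ 0 ∧ y = a • x := by
  obtain ⟨i, hi⟩ : ∃ i, x i ≠ 0 := Function.ne_iff.1 hx
  have hy' : y = (y i / x i) • x := by
    funext j
    simp only [Pi.smul_apply, smul_eq_mul]
    rw [div_mul_eq_mul_div, eq_div_iff hi]
    fin_cases i <;> fin_cases j <;> simp at hi ⊢ <;> grind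
  refine ⟨_, fun e => ?_, hy'⟩
  rw [e, zero_smul] at hy'
  exact hy hy'

lemma t2Space : T2Space (X m) := by
  have hq : IsOpenQuotientMap (Rep.pt : Rep m → X m) :=
    ⟨pt_surjective, continuous_pt, isOpenMap_pt⟩
  rw [t2Space_iff_of_isOpenQuotientMap hq]
  set P : ℂ → Set (Tup × Tup) := fun e => {q |
    q.1.1 0 * q.2.1 1 = q.1.1 1 * q.2.1 0 ∧ q.1.2.1 0 * q.2.2.1 1 = q.1.2.1 1 * q.2.2.1 0 ∧
    (∀ i, q.2.2.2.1 * q.1.2.1 i ^ (3 * m) = e * q.2.2.1 i ^ (3 * m) * q.1.2.2.1) ∧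
    (∀ i, q.2.2.2.2 * q.1.2.1 i ^ (3 * m) = e * q.2.2.1 i ^ (3 * m) * q.1.2.2.2)} with hP
  have hclosed : ∀ e, IsClosed (P e) := by
    intro e
    simp only [hP, Set.ofPred_and, Set.ofPred_forall]
    refine (isClosed_eq (by fun_prop) (by fun_prop)).inter ((isClosed_eq (by fun_prop) (by fun_prop)).inter
      ((isClosed_iInter fun i => isClosed_eq (by fun_prop) (by fun_prop)).inter
        (isClosed_iInter fun i => isClosed_eq (by fun_prop) (by fun_prop))))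
  have hset : {q : Rep m × Rep m | q.1.pt = q.2.pt}
      = (fun q : Rep m × Rep m => (q.1.tuple, q.2.tuple)) ⁻¹' (P 1 ∪ P (-1)) := by
    ext ⟨p, q⟩
    simp only [mem_preimage, mem_union, hP, mem_ofPred_eq, pt_eq_iff, Rep.tuple]
    constructor
    · rintro ⟨a, b, e, ha, hb, he, hz, hs, hu, hv⟩
      have key : ∀ i : Fin 2, q.u * p.s i ^ (3 * m) = e * q.s i ^ (3 * m) * p.u ∧
          q.v * p.s i ^ (3 * m) = e * q.s i ^ (3 * m) * p.v := by
        intro i
        simp only [hs, hu, hv, Pi.smul_apply, smul_eq_mul, mul_pow]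
        constructor <;> ring
      have hzc : p.z 0 * q.z 1 = p.z 1 * q.z 0 ∧ p.s 0 * q.s 1 = p.s 1 * q.s 0 := by
        simp only [hz, hs, Pi.smul_apply, smul_eq_mul]; constructor <;> ring
      rcases sq_eq_one_iff.1 he with rfl | rfl
      · exact Or.inl ⟨hzc.1, hzc.2, fun i => (key i).1, fun i => (key i).2⟩
      · exact Or.inr ⟨hzc.1, hzc.2, fun i => (key i).1, fun i => (key i).2⟩
    · intro h
      obtain ⟨e, he, hz, hs, hu, hv⟩ : ∃ e : ℂ, e ^ 2 = 1 ∧ p.z 0 * q.z 1 = p.z 1 * q.z 0 ∧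
          p.s 0 * q.s 1 = p.s 1 * q.s 0 ∧
          (∀ i, q.u * p.s i ^ (3 * m) = e * q.s i ^ (3 * m) * p.u) ∧
          (∀ i, q.v * p.s i ^ (3 * m) = e * q.s i ^ (3 * m) * p.v) := by
        rcases h with h | h
        · exact ⟨1, one_pow 2, h⟩
        · exact ⟨-1, by norm_num, h⟩
      obtain ⟨a, ha, hza⟩ := exists_smul_of_cross p.hz q.hz hz
      obtain ⟨b, hb, hsb⟩ := exists_smul_of_cross p.hs q.hs hs
      obtain ⟨i, hi⟩ : ∃ i, p.s i ≠ 0 := Function.ne_iff.1 p.hs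
      refine ⟨a, b, e, ha, hb, he, hza, hsb, ?_, ?_⟩
      · refine mul_right_cancel₀ (pow_ne_zero (3 * m) hi) ?_
        rw [hu i, hsb, Pi.smul_apply, smul_eq_mul, mul_pow]; ring
      · refine mul_right_cancel₀ (pow_ne_zero (3 * m) hi) ?_
        rw [hv i, hsb, Pi.smul_apply, smul_eq_mul, mul_pow]; ring
  rw [hset]
  exact ((hclosed 1).union (hclosed (-1))).preimage
    ((isInducing_tuple.continuous.comp continuous_fst).prodMk (isInducing_tuple.continuous.comp continuous_snd))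

lemma norm_smul_inv {x : Fin 2 → ℂ} (hx : x ≠ 0) : ‖((‖x‖⁻¹ : ℝ) : ℂ) • x‖ = 1 := by
  rw [norm_smul, Complex.norm_real, norm_inv, norm_norm, inv_mul_cancel₀ (norm_ne_zero_iff.2 hx)]

lemma compactSpace : CompactSpace (X m) := by
  set K : Set (Rep m) := {p | ‖p.z‖ = 1 ∧ ‖p.s‖ = 1} with hK
  set T : Set Tup := {t | ‖t.1‖ = 1 ∧ ‖t.2.1‖ = 1 ∧
    t.2.2.1 ^ 2 = t.2.1 1 ^ (6 * m) - t.2.1 0 ^ (6 * m) ∧
    t.2.2.2 ^ 2 = t.2.1 1 ^ (6 * m) + t.2.1 0 ^ (6 * m)} with hT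
  have hTc : IsCompact T := by
    refine Metric.isCompact_of_isClosed_isBounded ?_ ((Metric.isBounded_closedBall (x := (0 : Tup)) (r := 2)).subset ?_)
    · exact (isClosed_eq (by fun_prop) continuous_const).inter ((isClosed_eq (by fun_prop) continuous_const).inter
        ((isClosed_eq (by fun_prop) (by fun_prop)).inter (isClosed_eq (by fun_prop) (by fun_prop))))
    · rintro t ⟨h1, h2, h3, h4⟩
      have hb : ∀ i, ‖t.2.1 i ^ (6 * m)‖ ≤ 1 := fun i => by
        rw [norm_pow]; exact pow_le_one₀ (norm_nonneg _) ((norm_le_pi_norm _ i).trans h2.le)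
      have hu : ‖t.2.2.1‖ ^ 2 ≤ 2 ^ 2 := by
        rw [← norm_pow, h3]; refine (norm_sub_le _ _).trans ?_; linarith [hb 0, hb 1]
      have hv : ‖t.2.2.2‖ ^ 2 ≤ 2 ^ 2 := by
        rw [← norm_pow, h4]; refine (norm_add_le _ _).trans ?_; linarith [hb 0, hb 1]
      rw [mem_closedBall_zero_iff, Prod.norm_def, Prod.norm_def, Prod.norm_def, h1, h2]
      refine max_le (by norm_num) (max_le (by norm_num) (max_le ?_ ?_))
      · exact (sq_le_sq₀ (norm_nonneg _) (by norm_num)).1 hu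
      · exact (sq_le_sq₀ (norm_nonneg _) (by norm_num)).1 hv
  have himg : Rep.tuple '' K = T := by
    ext t
    constructor
    · rintro ⟨p, ⟨h1, h2⟩, rfl⟩; exact ⟨h1, h2, p.hu, p.hv⟩
    · rintro ⟨h1, h2, h3, h4⟩
      exact ⟨⟨t.1, t.2.1, t.2.2.1, t.2.2.2, norm_pos_iff.1 (h1 ▸ one_pos),
        norm_pos_iff.1 (h2 ▸ one_pos), h3, h4⟩, ⟨h1, h2⟩, rfl⟩
  have hKc : IsCompact K := isInducing_tuple.isCompact_iff.2 (himg ▸ hTc)
  refine ⟨?_⟩
  have : (univ : Set (X m)) = Rep.pt '' K := by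
    refine (eq_univ_iff_forall.2 fun x => ?_).symm
    obtain ⟨p, rfl⟩ := pt_surjective x
    have ha : ((‖p.z‖⁻¹ : ℝ) : ℂ) ≠ 0 := by
      exact_mod_cast inv_ne_zero (norm_ne_zero_iff.2 p.hz)
    have hb : ((‖p.s‖⁻¹ : ℝ) : ℂ) ≠ 0 := by
      exact_mod_cast inv_ne_zero (norm_ne_zero_iff.2 p.hs)
    exact ⟨gauge _ _ 1 ha hb (one_pow 2) p, ⟨norm_smul_inv p.hz, norm_smul_inv p.hs⟩,
      pt_eq_iff.2 (Rep.Rel.symm ⟨_, _, 1, ha, hb, one_pow 2, rfl, rfl, rfl, rfl⟩)⟩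
  rw [this]
  exact hKc.image continuous_pt

/-- The principal square root with a continuous extension to the closed right half plane. -/
def hroot (x : ℂ) : ℂ := x ^ ((2 : ℕ) : ℂ)⁻¹

lemma hroot_sq (x : ℂ) : hroot x ^ 2 = x := Complex.cpow_nat_inv_pow x two_ne_zero

lemma hroot_zero : hroot 0 = 0 := by simp [hroot]

lemma continuousAt_hroot {x : ℂ} (h : 0 ≤ x.re) : ContinuousAt hroot x :=
  (Complex.continuousAt_cpow_of_re_pos (p := (x, ((2 : ℕ) : ℂ)⁻¹)) (Or.inl h) (by norm_num)).comp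
    (f := fun y : ℂ => (y, ((2 : ℕ) : ℂ)⁻¹)) (by fun_prop)

lemma one_add_pow_re_nonneg {σ : ℂ} (hσ : ‖σ‖ ≤ 1) (k : ℕ) :
    0 ≤ (1 + σ ^ k).re ∧ 0 ≤ (1 - σ ^ k).re := by
  have h : ‖σ ^ k‖ ≤ 1 := by rw [norm_pow]; exact pow_le_one₀ (norm_nonneg _) hσ
  have := abs_le.1 ((Complex.abs_re_le_norm (σ ^ k)).trans h)
  simp only [Complex.add_re, Complex.sub_re, Complex.one_re]
  constructor <;> linarith

/-- A continuous lift over a closed unit disk. -/
def discRep (m : ℕ) (b : Fin 2) (g : ℂ) (hg : g ^ 2 = 1) (p : {z : Fin 2 → ℂ // z ≠ 0} × ℂ) :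
    Rep m where
  z := p.1
  s := if b = 0 then ![1, p.2] else ![p.2, 1]
  u := if b = 0 then Complex.I * hroot (1 - p.2 ^ (6 * m)) else hroot (1 - p.2 ^ (6 * m))
  v := g * hroot (1 + p.2 ^ (6 * m))
  hz := p.1.2
  hs := by
    intro e
    fin_cases b <;> simp at e
  hu := by fin_cases b <;> simp [mul_pow, hroot_sq]
  hv := by fin_cases b <;> simp [mul_pow, hg, hroot_sq] <;> ring

lemma connectedSpace : ConnectedSpace (X m) := by
  set B : Set ({z : Fin 2 → ℂ // z ≠ 0} × ℂ) := univ ×ˢ Metric.closedBall 0 1 with hB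
  have hz : IsPreconnected (univ : Set {z : Fin 2 → ℂ // z ≠ 0}) := by
    have h : IsConnected ({0}ᶜ : Set (Fin 2 → ℂ)) := by
      refine isConnected_compl_singleton_of_one_lt_rank ?_ 0
      rw [← Module.finrank_eq_rank, Module.finrank_pi_fintype]
      simp [Complex.finrank_real_complex]
    have h' : ConnectedSpace ({0}ᶜ : Set (Fin 2 → ℂ)) := isConnected_iff_connectedSpace.1 h
    exact h'.isPreconnected_univ
  have hBc : IsPreconnected B := hz.prod (convex_closedBall 0 1).isPreconnected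
  have sgn : ∀ g : Bool, (if g then (1 : ℂ) else -1) ^ 2 = 1 := fun g => by cases g <;> simp
  set F : Fin 2 × Bool → {z : Fin 2 → ℂ // z ≠ 0} × ℂ → X m :=
    fun i p => (discRep m i.1 _ (sgn i.2) p).pt with hF
  have hcont : ∀ i, ContinuousOn (F i) B := by
    rintro ⟨b, g⟩
    refine continuous_pt.comp_continuousOn ((isInducing_tuple.continuousOn_iff).2 fun p hp => ?_)
    have hσ : ‖p.2‖ ≤ 1 := mem_closedBall_zero_iff.1 hp.2
    obtain ⟨r1, r2⟩ := one_add_pow_re_nonneg hσ (6 * m)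
    have c1 : ContinuousAt (fun q : {z : Fin 2 → ℂ // z ≠ 0} × ℂ => hroot (1 - q.2 ^ (6 * m))) p :=
      (continuousAt_hroot r2).comp (f := fun q : {z : Fin 2 → ℂ // z ≠ 0} × ℂ => 1 - q.2 ^ (6 * m)) (by fun_prop)
    have c2 : ContinuousAt (fun q : {z : Fin 2 → ℂ // z ≠ 0} × ℂ => hroot (1 + q.2 ^ (6 * m))) p :=
      (continuousAt_hroot r1).comp (f := fun q : {z : Fin 2 → ℂ // z ≠ 0} × ℂ => 1 + q.2 ^ (6 * m)) (by fun_prop)
    refine ContinuousAt.continuousWithinAt ?_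
    show ContinuousAt (fun q => (discRep m b _ (sgn g) q).tuple) p
    refine (continuous_subtype_val.comp continuous_fst).continuousAt.prodMk (ContinuousAt.prodMk ?_
      (ContinuousAt.prodMk ?_ (continuousAt_const.mul c2)))
    · fin_cases b <;> simp [discRep] <;> fun_prop
    · fin_cases b <;> simp [discRep]
      · exact continuousAt_const.mul c1
      · exact c1
  have hall : (univ : Set (X m)) = ⋃ i, F i '' B := by
    refine (eq_univ_iff_forall.2 fun x => ?_).symm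
    obtain ⟨p, rfl⟩ := pt_surjective x
    obtain ⟨b, hb0, hb1⟩ : ∃ b, p.s b ≠ 0 ∧ ‖p.s (1 - b)‖ ≤ ‖p.s b‖ := by
      rcases le_total ‖p.s 1‖ ‖p.s 0‖ with h | h
      · refine ⟨0, fun e => p.hs ?_, by simpa using h⟩
        rw [e, norm_zero, norm_le_zero_iff] at h
        funext i; fin_cases i <;> assumption
      · refine ⟨1, fun e => p.hs ?_, by simpa using h⟩
        rw [e, norm_zero, norm_le_zero_iff] at h
        funext i; fin_cases i <;> assumption
    set σ := p.s (1 - b) / p.s b with hσ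
    have hc := onCurve_nrm p hb0
    set u' := (nrm m b p.tuple).2.1 with hu'
    set v' := (nrm m b p.tuple).2.2 with hv'
    set w : ℂ := if b = 0 then Complex.I * hroot (1 - σ ^ (6 * m)) else hroot (1 - σ ^ (6 * m)) with hw
    have hw2 : w ^ 2 = u' ^ 2 := by
      rw [hu', hc.1, hw, show (nrm m b p.tuple).1 = σ from rfl]
      fin_cases b <;> simp [eps, mul_pow, hroot_sq]
    obtain ⟨e, he, hue⟩ : ∃ e : ℂ, e ^ 2 = 1 ∧ u' = e * w := by
      rcases sq_eq_sq_iff_eq_or_eq_neg.1 hw2 with h | h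
      · exact ⟨1, one_pow 2, by rw [one_mul, h]⟩
      · exact ⟨-1, by norm_num, by rw [h]; ring⟩
    have hv2 : (e * v') ^ 2 = hroot (1 + σ ^ (6 * m)) ^ 2 := by
      rw [mul_pow, he, one_mul, hv', hc.2, hroot_sq, show (nrm m b p.tuple).1 = σ from rfl]; ring
    obtain ⟨g, hg⟩ : ∃ g : Bool, e * v' = (if g then (1:ℂ) else -1) * hroot (1 + σ ^ (6 * m)) := by
      rcases sq_eq_sq_iff_eq_or_eq_neg.1 hv2 with h | h
      · exact ⟨true, by simpa using h⟩
      · exact ⟨false, by simpa using h⟩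
    refine mem_iUnion.2 ⟨(b, g), ((⟨p.z, p.hz⟩, σ)), ⟨mem_univ _, ?_⟩, pt_eq_iff.2 ?_⟩
    · rw [mem_closedBall_zero_iff, hσ, norm_div, div_le_one (norm_pos_iff.2 hb0)]; exact hb1
    · have hs3 : p.s b ^ (3 * m) ≠ 0 := pow_ne_zero _ hb0
      refine ⟨1, p.s b, e, one_ne_zero, hb0, he, by simp [discRep], ?_, ?_, ?_⟩
      · funext i
        fin_cases b <;> fin_cases i <;> simp [discRep, hσ] at hb0 ⊢ <;> field_simp
      · have h1 : p.u = u' * p.s b ^ (3 * m) := (div_mul_cancel₀ _ hs3).symm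
        rw [h1, hue, hw]; simp only [discRep]; ring
      · have h1 : p.v = v' * p.s b ^ (3 * m) := (div_mul_cancel₀ _ hs3).symm
        rw [h1, show v' = e * (e * v') by rw [← mul_assoc, ← sq, he, one_mul], hg]
        simp only [discRep]; ring
  set z0 : {z : Fin 2 → ℂ // z ≠ 0} := ⟨fun _ => 1, fun h => one_ne_zero (congrFun h 0)⟩ with hz0
  have hpre : IsPreconnected (univ : Set (X m)) := by
    rw [hall]
    refine isPreconnected_iUnion ⟨F (1, true) (z0, 1), mem_iInter.2 fun i => ?_⟩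
      fun i => hBc.image _ (hcont i)
    obtain ⟨b, g⟩ := i
    refine ⟨(z0, 1), ⟨mem_univ _, by simp⟩, pt_eq_iff.2 ?_⟩
    refine ⟨1, 1, if g then (1 : ℂ) else -1, one_ne_zero, one_ne_zero, sgn g, by simp [discRep], ?_, ?_, ?_⟩
    · fin_cases b <;> simp [discRep]
    · fin_cases b <;> simp [discRep, hroot_zero]
    · cases g <;> fin_cases b <;> simp [discRep]
  exact connectedSpace_iff_univ.2 ⟨⟨(filler m).pt, mem_univ _⟩, hpre⟩

end Vale.Agent.P296.Geo
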