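import Vale.Agent.P296.Geometry.Mono

/-!
The geometric interface of `X m`.
-/

noncomputable section

namespace Vale.Agent.P296.Geo

/-- All the geometric facts about `X m`, for the charted space structure `chartedSpace hm`. -/
theorem geomSpec {m : ℕ} (hm : 1 ≤ m) : letI := chartedSpace hm; GeomSpec m := by
  let _ := chartedSpace hm
  exact
    { manifold := isManifold hm
      t2 := t2Space
      compact := compactSpace
      connected := connectedSpace
      local_lift := local_lift hm
      affine := affine hm
      mono_inj := mono_inj
      mono_immersive := fun A B hA hB => mono_immersive hm A B hA hB }

end Vale.Agent.P296.Geo
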