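import Vale.Agent.P296.Geometry.Charts

/-!
The monomials of bidegree `(A, B)` separate points and tangent vectors of `X m`.
-/

open Set Topology Filter
open scoped ContDiff Manifold

noncomputable section

namespace Vale.Agent.P296.Geo

variable {m : ℕ}

lemma fin2_other (a i : Fin 2) : i = a ∨ i = 1 - a := by fin_cases a <;> fin_cases i <;> simp

/-- The two exponents used to separate: pure, and pure but one. -/
lemma exists_exponent (N : ℕ) (a : Fin 2) {k : ℕ} (hk : k ≤ 1) (hN : k ≤ N) :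
    ∃ i : Fin (N + 1), ∀ z : Fin 2 → ℂ,
      z 0 ^ (i : ℕ) * z 1 ^ (N - i) = z a ^ (N - k) * z (1 - a) ^ k := by
  fin_cases a
  · exact ⟨⟨N - k, by omega⟩, fun z => by simp [show N - (N - k) = k by omega]⟩
  · exact ⟨⟨k, by omega⟩, fun z => by simp [mul_comm]⟩

lemma smul_of_monomials {N : ℕ} (hN : 1 ≤ N) {x y : Fin 2 → ℂ} (hx : x ≠ 0) (hy : y ≠ 0) {c : ℂ}
    (h : ∀ i : Fin (N + 1), x 0 ^ (i : ℕ) * x 1 ^ (N - i) = c * (y 0 ^ (i : ℕ) * y 1 ^ (N - i))) :
    ∃ a : ℂ, a ≠ 0 ∧ y = a • x := by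
  obtain ⟨a, ha⟩ : ∃ a, x a ≠ 0 := Function.ne_iff.1 hx
  obtain ⟨i, hi⟩ := exists_exponent N a (k := 0) (by norm_num) (Nat.zero_le _)
  obtain ⟨j, hj⟩ := exists_exponent N a (k := 1) le_rfl hN
  have h0 := h i
  have h1 := h j
  simp only [hi, pow_zero, mul_one, Nat.sub_zero] at h0
  simp only [hj, pow_one] at h1
  have e : x (1 - a) * y a = x a * y (1 - a) := by
    refine mul_left_cancel₀ (pow_ne_zero (N - 1) ha) ?_
    calc x a ^ (N - 1) * (x (1 - a) * y a) = c * y a ^ N * y (1 - a) := by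
          rw [← mul_assoc, h1]; conv_rhs => rw [← Nat.sub_add_cancel hN, pow_succ]
          ring
      _ = x a ^ (N - 1) * (x a * y (1 - a)) := by
          rw [← h0]; conv_lhs => rw [← Nat.sub_add_cancel hN, pow_succ]
          ring
  refine exists_smul_of_cross hx hy ?_
  fin_cases a <;> simp at e <;> grind

lemma exists_s_index (m A B : ℕ) (a b : Fin 2) {ka kb : ℕ} (ha : ka ≤ 1) (hb : kb ≤ 1)
    (hA : ka ≤ A) (hB : kb ≤ B) : ∃ l : MonoIdx m A B, ∀ p : Rep m,
      p.mono A B l = p.z a ^ (A - ka) * p.z (1 - a) ^ ka * (p.s b ^ (B - kb) * p.s (1 - b) ^ kb) := by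
  obtain ⟨i, hi⟩ := exists_exponent A a ha hA
  obtain ⟨j, hj⟩ := exists_exponent B b hb hB
  exact ⟨(i, .inl j), fun p => by simp only [Rep.mono, hi, hj]⟩

lemma exists_uv_index (m A B : ℕ) (a b : Fin 2) : ∃ l : MonoIdx m A B, ∀ p : Rep m,
      p.mono A B l = p.z a ^ A * (p.u * p.v * p.s b ^ (B - 6 * m)) := by
  obtain ⟨i, hi⟩ := exists_exponent A a (k := 0) (by norm_num) (Nat.zero_le _)
  obtain ⟨j, hj⟩ := exists_exponent (B - 6 * m) b (k := 0) (by norm_num) (Nat.zero_le _)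
  exact ⟨(i, .inr j), fun p => by simp only [Rep.mono, hi, hj, pow_zero, mul_one, Nat.sub_zero]⟩

lemma mono_inj (A B : ℕ) (hA : 1 ≤ A) (hB : 6 * m + 1 ≤ B) (p q : Rep m) (c : ℂ)
    (h : ∀ l, p.mono A B l = c * q.mono A B l) : p.pt = q.pt := by
  obtain ⟨a, ha⟩ : ∃ a, p.z a ≠ 0 := Function.ne_iff.1 p.hz
  obtain ⟨b, hb⟩ : ∃ b, p.s b ≠ 0 := Function.ne_iff.1 p.hs
  have hzp := pow_ne_zero A ha
  have hsp := pow_ne_zero B hb
  obtain ⟨ib, hib⟩ := exists_exponent B b (k := 0) (by norm_num) (Nat.zero_le _)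
  obtain ⟨ia, hia⟩ := exists_exponent A a (k := 0) (by norm_num) (Nat.zero_le _)
  obtain ⟨α, hα, hz⟩ : ∃ α : ℂ, α ≠ 0 ∧ q.z = α • p.z := by
    refine smul_of_monomials hA p.hz q.hz (c := c * q.s b ^ B / p.s b ^ B) fun i => ?_
    have h1 := h (i, .inl ib)
    simp only [Rep.mono, hib, pow_zero, mul_one, Nat.sub_zero] at h1
    rw [div_mul_eq_mul_div, eq_div_iff hsp, h1]; ring
  obtain ⟨β, hβ, hs⟩ : ∃ β : ℂ, β ≠ 0 ∧ q.s = β • p.s := by
    refine smul_of_monomials (by omega : 1 ≤ B) p.hs q.hs (c := c * q.z a ^ A / p.z a ^ A) fun j => ?_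
    have h1 := h (ia, .inl j)
    simp only [Rep.mono, hia, pow_zero, mul_one, Nat.sub_zero] at h1
    rw [div_mul_eq_mul_div, eq_div_iff hzp, mul_comm, h1]; ring
  have hc : c * α ^ A * β ^ B = 1 := by
    have h1 := h (ia, .inl ib)
    simp only [Rep.mono, hia, hib, pow_zero, mul_one, Nat.sub_zero] at h1
    rw [hz, hs, Pi.smul_apply, Pi.smul_apply, smul_eq_mul, smul_eq_mul, mul_pow, mul_pow] at h1
    refine mul_right_cancel₀ (mul_ne_zero hzp hsp) ?_
    rw [one_mul]; linear_combination -h1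
  have huv : q.u * q.v = β ^ (6 * m) * (p.u * p.v) := by
    obtain ⟨l, hl⟩ := exists_uv_index m A B a b
    have h1 := h l
    rw [hl, hl, hz, hs, Pi.smul_apply, Pi.smul_apply, smul_eq_mul, smul_eq_mul, mul_pow,
      mul_pow] at h1
    have hB' : β ^ B = β ^ (B - 6 * m) * β ^ (6 * m) := by
      rw [← pow_add, Nat.sub_add_cancel (by omega)]
    rw [hB'] at hc
    refine mul_left_cancel₀ (mul_ne_zero hzp (pow_ne_zero (B - 6 * m) hb)) ?_
    linear_combination (-(β ^ (6 * m))) * h1 - (p.z a ^ A * p.s b ^ (B - 6 * m) * q.u * q.v) * hc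
  have h3 : β ^ (3 * m) ≠ 0 := pow_ne_zero _ hβ
  have h6 : β ^ (3 * m) * β ^ (3 * m) = β ^ (6 * m) := by rw [← pow_add]; ring_nf
  have hu2 : (q.u / β ^ (3 * m)) ^ 2 = p.u ^ 2 := by
    rw [div_pow, div_eq_iff (pow_ne_zero _ h3), q.hu, p.hu, sq, h6, hs]
    simp only [Pi.smul_apply, smul_eq_mul, mul_pow]; ring
  have hv2 : (q.v / β ^ (3 * m)) ^ 2 = p.v ^ 2 := by
    rw [div_pow, div_eq_iff (pow_ne_zero _ h3), q.hv, p.hv, sq, h6, hs]
    simp only [Pi.smul_apply, smul_eq_mul, mul_pow]; ring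
  have huv' : q.u / β ^ (3 * m) * (q.v / β ^ (3 * m)) = p.u * p.v := by
    rw [div_mul_div_comm, h6, huv]; field_simp
  obtain ⟨e, he, he1, he2⟩ : ∃ e : ℂ, e ^ 2 = 1 ∧ q.u / β ^ (3 * m) = e * p.u ∧
      q.v / β ^ (3 * m) = e * p.v := by
    rcases eq_or_ne p.u 0 with hu0 | hu0
    · have hu' : q.u / β ^ (3 * m) = 0 := by simpa [hu0] using hu2
      rcases sq_eq_sq_iff_eq_or_eq_neg.1 hv2 with e | e
      · exact ⟨1, one_pow 2, by rw [hu', hu0, mul_zero], by rw [one_mul, e]⟩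
      · exact ⟨-1, by norm_num, by rw [hu', hu0, mul_zero], by rw [e]; ring⟩
    · rcases sq_eq_sq_iff_eq_or_eq_neg.1 hu2 with e | e
      · refine ⟨1, one_pow 2, by rw [one_mul, e], ?_⟩
        rw [e] at huv'
        rw [one_mul]; exact mul_left_cancel₀ hu0 huv'
      · refine ⟨-1, by norm_num, by rw [e]; ring, ?_⟩
        rw [e] at huv'
        exact mul_left_cancel₀ hu0 (by linear_combination -huv')
  refine pt_eq_iff.2 ⟨α, β, e, hα, hβ, he, hz, hs, ?_, ?_⟩
  · rw [(div_eq_iff h3).1 he1]; ring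
  · rw [(div_eq_iff h3).1 he2]; ring

/-- A monomial as a function on tuples. -/
def monoFn (m A B : ℕ) : MonoIdx m A B → Tup → ℂ
  | (i, .inl j) => fun t => t.1 0 ^ (i : ℕ) * t.1 1 ^ (A - i) *
      (t.2.1 0 ^ (j : ℕ) * t.2.1 1 ^ (B - j))
  | (i, .inr j) => fun t => t.1 0 ^ (i : ℕ) * t.1 1 ^ (A - i) *
      (t.2.2.1 * t.2.2.2 * (t.2.1 0 ^ (j : ℕ) * t.2.1 1 ^ (B - 6 * m - j)))

lemma mono_eq_monoFn (p : Rep m) (A B : ℕ) : ∀ l, p.mono A B l = monoFn m A B l p.tuple
  | (_, .inl _) => rfl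
  | (_, .inr _) => rfl

lemma differentiable_monoFn (m A B : ℕ) : ∀ l, Differentiable ℂ (monoFn m A B l)
  | (_, .inl _) => by unfold monoFn; fun_prop
  | (_, .inr _) => by unfold monoFn; fun_prop

lemma hasDerivAt_pow_prod {z w : ℂ → ℂ} {dz dw : ℂ} (hz : HasDerivAt z dz 0) (hw : HasDerivAt w dw 0)
    (N : ℕ) : HasDerivAt (fun t => z t ^ N * w t)
      ((N : ℂ) * z 0 ^ (N - 1) * dz * w 0 + z 0 ^ N * dw) 0 :=
  (hz.pow N).mul hw

lemma mul_pow_pred (x : ℂ) {n : ℕ} (hn : 1 ≤ n) : x ^ (n - 1) * x = x ^ n := by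
  rw [← pow_succ, Nat.sub_add_cancel hn]

/-- A curve of representatives along which all monomials have logarithmic derivative `c` moves
along the gauge orbit. -/
lemma tangent_gauge (hm : 1 ≤ m) {A B : ℕ} (hA : 1 ≤ A) (hB : 6 * m + 1 ≤ B) (γ : ℂ → Rep m)
    (dz ds : Fin 2 → ℂ) (du dv : ℂ) (hz : ∀ i, HasDerivAt (fun t => (γ t).z i) (dz i) 0)
    (hs : ∀ i, HasDerivAt (fun t => (γ t).s i) (ds i) 0)
    (hu : HasDerivAt (fun t => (γ t).u) du 0) (hv : HasDerivAt (fun t => (γ t).v) dv 0) (c : ℂ)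
    (h : ∀ l, HasDerivAt (fun t => (γ t).mono A B l) (c * (γ 0).mono A B l) 0) :
    ∃ α β : ℂ, dz = α • (γ 0).z ∧ ds = β • (γ 0).s ∧
      du = 3 * m * β * (γ 0).u ∧ dv = 3 * m * β * (γ 0).v := by
  set p := γ 0 with hp
  obtain ⟨a, ha⟩ : ∃ a, p.z a ≠ 0 := Function.ne_iff.1 p.hz
  obtain ⟨b, hb⟩ : ∃ b, p.s b ≠ 0 := Function.ne_iff.1 p.hs
  set α := dz a / p.z a with hαd
  set β := ds b / p.s b with hβd
  have hα : dz a = α * p.z a := (div_mul_cancel₀ _ ha).symm
  have hβ : ds b = β * p.s b := (div_mul_cancel₀ _ hb).symm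
  have hzp := pow_ne_zero A ha
  have hsp := pow_ne_zero B hb
  have hA' : p.z a ^ (A - 1) * p.z a = p.z a ^ A := mul_pow_pred _ hA
  have hB' : p.s b ^ (B - 1) * p.s b = p.s b ^ B := mul_pow_pred _ (by omega)
  obtain ⟨l0, hl0⟩ := exists_s_index m A B a b (ka := 0) (kb := 0) (by norm_num) (by norm_num)
    (Nat.zero_le _) (Nat.zero_le _)
  have hc : c = A * α + B * β := by
    have h1 := h l0
    simp only [hl0, pow_zero, mul_one, Nat.sub_zero] at h1
    have h2 := h1.unique (((hz a).pow A).mul ((hs b).pow B))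
    simp only [← hp, hα, hβ, Pi.pow_apply] at h2
    refine mul_right_cancel₀ (mul_ne_zero hzp hsp) ?_
    linear_combination h2 + (A * α * p.s b ^ B) * hA' + (B * β * p.z a ^ A) * hB'
  have hz' : dz (1 - a) = α * p.z (1 - a) := by
    obtain ⟨l, hl⟩ := exists_s_index m A B a b (ka := 1) (kb := 0) le_rfl (by norm_num)
      hA (Nat.zero_le _)
    have h1 := h l
    simp only [hl, pow_one, pow_zero, mul_one, Nat.sub_zero] at h1
    have h2 := h1.unique ((((hz a).pow (A - 1)).mul (hz (1 - a))).mul ((hs b).pow B))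
    simp only [← hp, hα, hβ, Pi.pow_apply, Pi.mul_apply, hc] at h2
    refine mul_left_cancel₀ (mul_ne_zero (pow_ne_zero (A - 1) ha) hsp) ?_
    rcases eq_or_lt_of_le hA with hA1 | hA2
    · subst hA1
      simp only [Nat.sub_self, pow_zero, Nat.cast_zero, zero_mul, zero_add, one_mul,
        Nat.cast_one] at h2 ⊢
      linear_combination -h2 - (B * β * p.z (1 - a)) * hB'
    · have hA'' : p.z a ^ (A - 1 - 1) * p.z a = p.z a ^ (A - 1) := mul_pow_pred _ (by omega)
      have hcast : ((A - 1 : ℕ) : ℂ) = A - 1 := by rw [Nat.cast_sub hA]; simp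
      rw [hcast] at h2
      linear_combination -h2 - ((A - 1) * α * p.z (1 - a) * p.s b ^ B) * hA''
        - (B * β * p.z a ^ (A - 1) * p.z (1 - a)) * hB'
  have hs' : ds (1 - b) = β * p.s (1 - b) := by
    obtain ⟨l, hl⟩ := exists_s_index m A B a b (ka := 0) (kb := 1) (by norm_num) le_rfl
      (Nat.zero_le _) (by omega)
    have h1 := h l
    simp only [hl, pow_one, pow_zero, mul_one, Nat.sub_zero] at h1
    have h2 := h1.unique (((hz a).pow A).mul (((hs b).pow (B - 1)).mul (hs (1 - b))))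
    simp only [← hp, hα, hβ, Pi.pow_apply, Pi.mul_apply, hc] at h2
    refine mul_left_cancel₀ (mul_ne_zero hzp (pow_ne_zero (B - 1) hb)) ?_
    have hB'' : p.s b ^ (B - 1 - 1) * p.s b = p.s b ^ (B - 1) := mul_pow_pred _ (by omega)
    have hcast : ((B - 1 : ℕ) : ℂ) = B - 1 := by rw [Nat.cast_sub (by omega)]; simp
    rw [hcast] at h2
    linear_combination -h2 - ((B - 1) * β * p.z a ^ A * p.s (1 - b)) * hB''
      - (A * α * p.s b ^ (B - 1) * p.s (1 - b)) * hA'
  have hzall : dz = α • p.z := by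
    funext i
    rcases fin2_other a i with rfl | rfl
    · exact hα
    · exact hz'
  have hsall : ds = β • p.s := by
    funext i
    rcases fin2_other b i with rfl | rfl
    · exact hβ
    · exact hs'
  have hsd : ∀ i, HasDerivAt (fun t => (γ t).s i ^ (6 * m)) (6 * m * β * p.s i ^ (6 * m)) 0 := by
    intro i
    refine ((hs i).pow (6 * m)).congr_deriv ?_
    rw [← hp, hsall, Pi.smul_apply, smul_eq_mul]
    push_cast
    linear_combination (6 * m * β : ℂ) * mul_pow_pred (p.s i) (show 1 ≤ 6 * m by omega)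
  have h2u : 2 * p.u * du = 6 * m * β * p.u ^ 2 := by
    have h1 : HasDerivAt (fun t => (γ t).u ^ 2)
        (6 * m * β * p.s 1 ^ (6 * m) - 6 * m * β * p.s 0 ^ (6 * m)) 0 := by
      refine ((hsd 1).sub (hsd 0)).congr_of_eventuallyEq (Eventually.of_forall fun t => ?_)
      exact (γ t).hu
    have := h1.unique (hu.pow 2)
    simp only [← hp] at this
    norm_num at this
    linear_combination -this - (6 * m * β) * p.hu
  have h2v : 2 * p.v * dv = 6 * m * β * p.v ^ 2 := by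
    have h1 : HasDerivAt (fun t => (γ t).v ^ 2)
        (6 * m * β * p.s 1 ^ (6 * m) + 6 * m * β * p.s 0 ^ (6 * m)) 0 := by
      refine ((hsd 1).add (hsd 0)).congr_of_eventuallyEq (Eventually.of_forall fun t => ?_)
      exact (γ t).hv
    have := h1.unique (hv.pow 2)
    simp only [← hp] at this
    norm_num at this
    linear_combination -this - (6 * m * β) * p.hv
  have huv : du * p.v + p.u * dv = 6 * m * β * (p.u * p.v) := by
    obtain ⟨l, hl⟩ := exists_uv_index m A B a b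
    have h1 := h l
    simp only [hl] at h1
    have h2 := h1.unique (((hz a).pow A).mul ((hu.mul hv).mul ((hs b).pow (B - 6 * m))))
    simp only [← hp, hα, hβ, Pi.pow_apply, Pi.mul_apply, hc] at h2
    refine mul_left_cancel₀ (mul_ne_zero hzp (pow_ne_zero (B - 6 * m) hb)) ?_
    have hBm : p.s b ^ (B - 6 * m - 1) * p.s b = p.s b ^ (B - 6 * m) := mul_pow_pred _ (by omega)
    have hcast : ((B - 6 * m : ℕ) : ℂ) = B - 6 * m := by
      rw [Nat.cast_sub (by omega)]; push_cast; ring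
    rw [hcast] at h2
    linear_combination -h2 - (((B : ℂ) - 6 * m) * β * p.z a ^ A * p.u * p.v) * hBm
      - (A * α * p.u * p.v * p.s b ^ (B - 6 * m)) * hA'
  refine ⟨α, β, hzall, hsall, ?_, ?_⟩
  · rcases eq_or_ne p.u 0 with h0 | h0
    · have hv0 : p.v ≠ 0 := by
        intro hv0
        have e0 : p.s 0 ^ (6 * m) = 0 := by
          have hA0 := p.hu; have hB0 := p.hv
          rw [h0] at hA0; rw [hv0] at hB0
          linear_combination (1 / 2 : ℂ) * hA0 - (1 / 2 : ℂ) * hB0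
        have e1 : p.s 1 ^ (6 * m) = 0 := by
          have h := p.hu; rw [h0, e0] at h; simpa using h.symm
        exact p.hs (funext fun i => by
          fin_cases i <;> simp [pow_eq_zero_iff (show 6 * m ≠ 0 by omega)] at e0 e1 ⊢ <;> assumption)
      rw [h0] at huv ⊢
      simp [hv0] at huv
      simp [huv]
    · exact mul_left_cancel₀ (mul_ne_zero two_ne_zero h0) (by linear_combination h2u)
  · rcases eq_or_ne p.v 0 with h0 | h0
    · have hu0 : p.u ≠ 0 := by
        intro hu0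
        have e0 : p.s 0 ^ (6 * m) = 0 := by
          have hA0 := p.hu; have hB0 := p.hv
          rw [hu0] at hA0; rw [h0] at hB0
          linear_combination (1 / 2 : ℂ) * hA0 - (1 / 2 : ℂ) * hB0
        have e1 : p.s 1 ^ (6 * m) = 0 := by
          have h := p.hu; rw [hu0, e0] at h; simpa using h.symm
        exact p.hs (funext fun i => by
          fin_cases i <;> simp [pow_eq_zero_iff (show 6 * m ≠ 0 by omega)] at e0 e1 ⊢ <;> assumption)
      rw [h0] at huv ⊢
      simp [hu0] at huv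
      simp [huv]
    · exact mul_left_cancel₀ (mul_ne_zero two_ne_zero h0) (by linear_combination h2v)

lemma mono_immersive (hm : 1 ≤ m) (A B : ℕ) (hA : 1 ≤ A) (hB : 6 * m + 1 ≤ B) :
    letI := chartedSpace hm
    ∀ (U : Set (X m)) (L : X m → Rep m), IsOpen U →
    (∀ y ∈ U, (L y).pt = y) →
    ContMDiffOn 𝓘(ℂ, Cn 2) 𝓘(ℂ, (Fin 2 → ℂ) × (Fin 2 → ℂ) × ℂ × ℂ) ω (fun y => (L y).tuple) U →
    ∀ x ∈ U, ∀ (ξ : Cn 2) (c : ℂ),
      (∀ l, mfderiv 𝓘(ℂ, Cn 2) 𝓘(ℂ, ℂ) (fun y => (L y).mono A B l) x ξ =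
        c * (L x).mono A B l) → ξ = 0 := by
  let _ := chartedSpace hm
  have := isManifold hm
  intro U L hU hpt hL x hx ξ c hlin
  set ch := chartOf hm x with hch
  set xh := ch.coord x with hxh
  set T : Cn 2 → Tup := fun y => (L (ch.toOPH.symm y)).tuple with hT
  have hxs : x ∈ ch.source := mem_chartOf hm x
  have hsx : ch.toOPH.symm xh = x := ch.toOPH.left_inv hxs
  have hTd : DifferentiableAt ℂ T xh := by
    have h1 := ((hL.contMDiffAt (hU.mem_nhds hx)).mdifferentiableAt (by simp))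
    have h2 := (mdifferentiableAt_iff _ _).1 h1
    have h3 := h2.2
    simp [writtenInExtChartAt, extChartAt, Function.comp_def, differentiableWithinAt_univ, mfld_simps] at h3
    exact h3
  set δ := fderiv ℂ T xh ξ with hδ
  have hline : HasDerivAt (fun t : ℂ => T (xh + t • ξ)) δ 0 :=
    hTd.hasFDerivAt.hasLineDerivAt ξ
  set γ : ℂ → Rep m := fun t => L (ch.toOPH.symm (xh + t • ξ)) with hγ
  have hγ0 : γ 0 = L x := by simp [hγ, hsx]
  have hline' : HasDerivAt (fun t => (γ t).tuple) δ 0 := hline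
  have hzs : ∀ i, HasDerivAt (fun t => (γ t).z i) (δ.1 i) 0 := fun i =>
    (hasDerivAt_pi.1 hline'.fst i)
  have hss : ∀ i, HasDerivAt (fun t => (γ t).s i) (δ.2.1 i) 0 := fun i =>
    (hasDerivAt_pi.1 hline'.snd.fst i)
  have hmono : ∀ l, HasDerivAt (fun t => (γ t).mono A B l) (c * (γ 0).mono A B l) 0 := by
    intro l
    have hd : DifferentiableAt ℂ (fun y => monoFn m A B l (T y)) xh :=
      (differentiable_monoFn m A B l).differentiableAt.comp xh hTd
    have h1 : mfderiv 𝓘(ℂ, Cn 2) 𝓘(ℂ, ℂ) (fun y => (L y).mono A B l) x ξ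
        = fderiv ℂ (fun y => monoFn m A B l (T y)) xh ξ := by
      have hmd : MDifferentiableAt 𝓘(ℂ, Cn 2) 𝓘(ℂ, ℂ) (fun y => (L y).mono A B l) x := by
        have h1 := ((hL.contMDiffAt (hU.mem_nhds hx)).mdifferentiableAt (by simp))
        simp only [mono_eq_monoFn]
        exact (differentiable_monoFn m A B l).differentiableAt.mdifferentiableAt.comp x h1
      rw [hmd.mfderiv]
      simp only [writtenInExtChartAt, extChartAt, mfld_simps, Function.comp_def,
        fderivWithin_univ, mono_eq_monoFn]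
      rfl
    have h2 := hd.hasFDerivAt.hasLineDerivAt ξ
    rw [← h1, hlin l] at h2
    simpa [hγ0, hγ, mono_eq_monoFn, hT, HasLineDerivAt, hsx] using h2
  obtain ⟨α, β, hzα, hsβ, huβ, hvβ⟩ := tangent_gauge hm hA hB γ δ.1 δ.2.1 δ.2.2.1 δ.2.2.2 hzs hss
    hline'.snd.snd.fst hline'.snd.snd.snd c hmono
  rw [hγ0] at hzα hsβ huβ hvβ
  have hTx : T xh = (L x).tuple := by simp [hT, hsx]
  have hO : (L x).tuple ∈ ch.O := ch.mem_source.1 (by rwa [hpt x hx])
  have hG : DifferentiableAt ℂ ch.G (L x).tuple :=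
    (ch.smooth_G.contDiffAt (ch.isOpen_O.mem_nhds hO)).differentiableAt (by simp)
  -- the orbit is killed by the differential of the coordinate
  have horbit : fderiv ℂ ch.G (L x).tuple δ = 0 := by
    set p := L x with hp
    set η : ℂ → Tup := fun t => (Complex.exp (t * α) • p.z, Complex.exp (t * β) • p.s,
      1 * Complex.exp (t * β) ^ (3 * m) * p.u, 1 * Complex.exp (t * β) ^ (3 * m) * p.v) with hη
    have hη0 : η 0 = p.tuple := by simp [hη, Rep.tuple]
    have he : ∀ a : ℂ, HasDerivAt (fun t : ℂ => Complex.exp (t * a)) a 0 := fun a => by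
      simpa using ((hasDerivAt_id (0 : ℂ)).mul_const a).cexp
    have hηd : HasDerivAt η δ 0 := by
      have h3 : HasDerivAt (fun t : ℂ => Complex.exp (t * β) ^ (3 * m)) (3 * m * β) 0 := by
        exact ((he β).pow (3 * m)).congr_deriv (by simp)
      have := ((he α).smul_const p.z).prodMk (((he β).smul_const p.s).prodMk
        (((h3.const_mul (1 : ℂ)).mul_const p.u).prodMk ((h3.const_mul (1 : ℂ)).mul_const p.v)))
      refine this.congr_deriv ?_
      rw [one_mul, ← hzα, ← hsβ, ← huβ, ← hvβ]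
    have hconst : ∀ t, ch.G (η t) = ch.G p.tuple := fun t =>
      (ch.inv p (gauge _ _ 1 (Complex.exp_ne_zero (t * α)) (Complex.exp_ne_zero (t * β)) (one_pow 2) p)
        ⟨_, _, 1, Complex.exp_ne_zero _, Complex.exp_ne_zero _, one_pow 2, rfl, rfl, rfl, rfl⟩ hO).2
    have h4 : HasDerivAt (fun t => ch.G (η t)) (fderiv ℂ ch.G p.tuple δ) 0 :=
      hG.hasFDerivAt.comp_hasDerivAt_of_eq 0 hηd hη0.symm
    simp only [hconst] at h4
    exact h4.unique (hasDerivAt_const (0 : ℂ) (ch.G p.tuple))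
  have hid : (fun y => ch.G (T y)) =ᶠ[𝓝 xh] id := by
    have h1 : ∀ᶠ y in 𝓝 xh, y ∈ ch.toOPH.target ∩ ch.toOPH.symm ⁻¹' U :=
      (ch.toOPH.isOpen_inter_preimage_symm hU).mem_nhds
        ⟨ch.toOPH.map_source hxs, by rwa [mem_preimage, hsx]⟩
    filter_upwards [h1] with y hy
    have hs : ch.toOPH.symm y ∈ ch.source := ch.toOPH.map_target hy.1
    have hO' : (L (ch.toOPH.symm y)).tuple ∈ ch.O := ch.mem_source.1 (by rwa [hpt _ hy.2])
    show ch.G (L (ch.toOPH.symm y)).tuple = y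
    rw [← ch.coord_pt hO', hpt _ hy.2]
    exact ch.toOPH.right_inv hy.1
  have hchain : fderiv ℂ ch.G (L x).tuple δ = ξ := by
    have h5 := ((hTx ▸ hG.hasFDerivAt).comp xh hTd.hasFDerivAt).congr_of_eventuallyEq hid.symm
    have := congrArg (fun f : Cn 2 →L[ℂ] Cn 2 => f ξ) (h5.unique (hasFDerivAt_id xh))
    simpa [hδ, hTx] using this
  rw [← hchain, horbit]

end Vale.Agent.P296.Geo
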