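import Vale.Agent.P296.Model

/-!
Charts of `X m` given on homogeneous representatives.
-/

open Set Topology
open scoped ContDiff Manifold

noncomputable section

namespace Vale.Agent.P296.Geo

/-- The space of tuples `(z, s, u, v)`. -/
abbrev Tup : Type := (Fin 2 → ℂ) × (Fin 2 → ℂ) × ℂ × ℂ

variable {m : ℕ}

lemma isInducing_tuple : IsInducing (Rep.tuple : Rep m → Tup) := ⟨rfl⟩

lemma continuous_pt : Continuous (Rep.pt : Rep m → X m) := continuous_quotient_mk'

lemma pt_eq_iff {p q : Rep m} : p.pt = q.pt ↔ Rep.Rel p q := Quotient.eq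

lemma pt_surjective : Function.Surjective (Rep.pt : Rep m → X m) := Quotient.mk_surjective

/-- A representative of a point. -/
def rep (x : X m) : Rep m := Quotient.out x

lemma pt_rep (x : X m) : (rep x).pt = x := Quotient.out_eq x

/-- The action of the gauge group. -/
def gauge (a b e : ℂ) (ha : a ≠ 0) (hb : b ≠ 0) (he : e ^ 2 = 1) (p : Rep m) : Rep m where
  z := a • p.z
  s := b • p.s
  u := e * b ^ (3 * m) * p.u
  v := e * b ^ (3 * m) * p.v
  hz := smul_ne_zero ha p.hz
  hs := smul_ne_zero hb p.hs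
  hu := by
    rw [mul_pow, mul_pow, he, one_mul, p.hu, ← pow_mul]
    simp [Pi.smul_apply, mul_pow, show 3 * m * 2 = 6 * m by ring]; ring
  hv := by
    rw [mul_pow, mul_pow, he, one_mul, p.hv, ← pow_mul]
    simp [Pi.smul_apply, mul_pow, show 3 * m * 2 = 6 * m by ring]; ring

lemma continuous_gauge (a b e : ℂ) (ha : a ≠ 0) (hb : b ≠ 0) (he : e ^ 2 = 1) :
    Continuous (gauge a b e ha hb he : Rep m → Rep m) := by
  refine (isInducing_tuple.continuous_iff).2 ?_
  have h : Continuous fun t : Tup =>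
      ((a • t.1, b • t.2.1, e * b ^ (3 * m) * t.2.2.1, e * b ^ (3 * m) * t.2.2.2) : Tup) := by
    fun_prop
  exact h.comp isInducing_tuple.continuous

lemma isOpenMap_pt : IsOpenMap (Rep.pt : Rep m → X m) := by
  intro U hU
  show IsOpen (Rep.pt ⁻¹' (Rep.pt '' U))
  have h : Rep.pt ⁻¹' (Rep.pt '' U) =
      ⋃ (a : ℂ) (b : ℂ) (e : ℂ) (ha : a ≠ 0) (hb : b ≠ 0) (he : e ^ 2 = 1),
        (gauge a b e ha hb he : Rep m → Rep m) ⁻¹' U := by
    ext p
    simp only [mem_preimage, mem_image, mem_iUnion]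
    constructor
    · rintro ⟨q, hq, hqp⟩
      obtain ⟨a, b, e, ha, hb, he, h1, h2, h3, h4⟩ := (pt_eq_iff.1 hqp.symm)
      refine ⟨a, b, e, ha, hb, he, ?_⟩
      rwa [show gauge a b e ha hb he p = q from Rep.ext h1.symm h2.symm h3.symm h4.symm]
    · rintro ⟨a, b, e, ha, hb, he, hp⟩
      refine ⟨_, hp, pt_eq_iff.2 (Rep.Rel.symm ⟨a, b, e, ha, hb, he, rfl, rfl, rfl, rfl⟩)⟩
  rw [h]
  exact isOpen_iUnion fun a => isOpen_iUnion fun b => isOpen_iUnion fun e => isOpen_iUnion fun ha =>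
    isOpen_iUnion fun hb => isOpen_iUnion fun he => hU.preimage (continuous_gauge a b e ha hb he)

/-- A chart given on representatives: an invariant coordinate `G` on the saturated open set `O`,
with a smooth section `L`. -/
structure RepChart (m : ℕ) where
  D : Set (Cn 2)
  isOpen_D : IsOpen D
  O : Set Tup
  isOpen_O : IsOpen O
  G : Tup → Cn 2
  smooth_G : ContDiffOn ℂ ω G O
  L : Cn 2 → Rep m
  smooth_L : ContDiffOn ℂ ω (fun x => (L x).tuple) D
  inv : ∀ p q : Rep m, Rep.Rel p q → p.tuple ∈ O → q.tuple ∈ O ∧ G q.tuple = G p.tuple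
  left : ∀ x ∈ D, (L x).tuple ∈ O ∧ G (L x).tuple = x
  right : ∀ p : Rep m, p.tuple ∈ O → G p.tuple ∈ D ∧ (L (G p.tuple)).pt = p.pt

namespace RepChart

variable (c : RepChart m)

/-- The domain in `X m`. -/
def source : Set (X m) := Rep.pt '' (Rep.tuple ⁻¹' c.O)

lemma mem_source {p : Rep m} : p.pt ∈ c.source ↔ p.tuple ∈ c.O := by
  refine ⟨?_, fun h => ⟨p, h, rfl⟩⟩
  rintro ⟨q, hq, hqp⟩
  exact (c.inv q p (pt_eq_iff.1 hqp) hq).1

/-- The coordinate of a point. -/
def coord (x : X m) : Cn 2 := c.G (rep x).tuple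

lemma coord_pt {p : Rep m} (h : p.tuple ∈ c.O) : c.coord p.pt = c.G p.tuple :=
  (c.inv p (rep p.pt) (pt_eq_iff.1 (pt_rep p.pt).symm) h).2

lemma rep_mem {x : X m} (hx : x ∈ c.source) : (rep x).tuple ∈ c.O :=
  c.mem_source.1 (by rwa [pt_rep])

lemma isOpen_source : IsOpen c.source :=
  isOpenMap_pt _ (c.isOpen_O.preimage isInducing_tuple.continuous)

/-- The chart. -/
def toOPH : OpenPartialHomeomorph (X m) (Cn 2) where
  toFun := c.coord
  invFun x := (c.L x).pt
  source := c.source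
  target := c.D
  map_source' x hx := (c.right _ (c.rep_mem hx)).1
  map_target' x hx := c.mem_source.2 (c.left x hx).1
  left_inv' x hx := ((c.right _ (c.rep_mem hx)).2).trans (pt_rep x)
  right_inv' x hx := by rw [c.coord_pt (c.left x hx).1]; exact (c.left x hx).2
  open_source := c.isOpen_source
  open_target := c.isOpen_D
  continuousOn_toFun := by
    refine (continuousOn_open_iff c.isOpen_source).2 fun V hV => ?_
    have h : c.source ∩ c.coord ⁻¹' V = Rep.pt '' (Rep.tuple ⁻¹' (c.O ∩ c.G ⁻¹' V)) := by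
      ext x
      constructor
      · rintro ⟨hx, hV'⟩
        exact ⟨rep x, ⟨c.rep_mem hx, hV'⟩, pt_rep x⟩
      · rintro ⟨p, ⟨hp, hpV⟩, rfl⟩
        exact ⟨c.mem_source.2 hp, by rw [mem_preimage, c.coord_pt hp]; exact hpV⟩
    rw [h]
    exact isOpenMap_pt _
      ((c.smooth_G.continuousOn.isOpen_inter_preimage c.isOpen_O hV).preimage
        isInducing_tuple.continuous)
  continuousOn_invFun :=
    continuous_pt.comp_continuousOn ((isInducing_tuple.continuousOn_iff).2 c.smooth_L.continuousOn)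

/-- Changes of charts are holomorphic. -/
lemma contDiffOn_trans (c c' : RepChart m) :
    ContDiffOn ℂ ω (c'.coord ∘ c.toOPH.symm) (c.toOPH.symm ≫ₕ c'.toOPH).source := by
  have hs : (c.toOPH.symm ≫ₕ c'.toOPH).source = c.D ∩ (fun x => (c.L x).pt) ⁻¹' c'.source := rfl
  rw [hs]
  refine (c'.smooth_G.comp (c.smooth_L.mono inter_subset_left) ?_).congr ?_
  · exact fun x hx => c'.mem_source.1 hx.2
  · exact fun x hx => c'.coord_pt (c'.mem_source.1 hx.2)

end RepChart

end Vale.Agent.P296.Geo
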