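import Mathlib

/-!
Principal roots: `rt k` inverts the `k`-th power from the open sector `|arg w| < π / k` onto the
slit plane.
-/

open Complex Set
open scoped ContDiff

noncomputable section

namespace Vale.Agent.P296.Geo

/-- The principal `k`-th root. -/
def rt (k : ℕ) (z : ℂ) : ℂ := exp (log z / k)

/-- The open sector `|arg w| < π / k`. -/
def sector (k : ℕ) : Set ℂ := {w | w ∈ slitPlane ∧ |arg w| < Real.pi / k}

lemma isOpen_sector (k : ℕ) : IsOpen (sector k) := by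
  have h : ContinuousOn (fun w => |arg w|) slitPlane :=
    fun w hw => ((continuousAt_arg hw).abs).continuousWithinAt
  exact h.isOpen_inter_preimage isOpen_slitPlane isOpen_Iio

lemma sector_ne_zero {k : ℕ} {w : ℂ} (h : w ∈ sector k) : w ≠ 0 := slitPlane_ne_zero h.1

lemma contDiffAt_rt {k : ℕ} {z : ℂ} (hz : z ∈ slitPlane) : ContDiffAt ℂ ω (rt k) z :=
  ((contDiffAt_log hz).div_const _).cexp

lemma rt_pow {k : ℕ} (hk : k ≠ 0) {z : ℂ} (hz : z ≠ 0) : rt k z ^ k = z := by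
  rw [rt, ← exp_nat_mul, mul_div_cancel₀ _ (Nat.cast_ne_zero.2 hk), exp_log hz]

lemma rt_mem_sector {k : ℕ} (hk : 1 ≤ k) {z : ℂ} (hz : z ∈ slitPlane) : rt k z ∈ sector k := by
  have hk0 : (0 : ℝ) < k := by exact_mod_cast hk
  have hz' := mem_slitPlane_iff_arg.1 hz
  have h1 : |arg z| < Real.pi := by
    rw [abs_lt]; exact ⟨neg_pi_lt_arg z, lt_of_le_of_ne (arg_le_pi z) hz'.1⟩
  have him : (log z / (k : ℂ)).im = arg z / k := by rw [div_natCast_im, log_im]
  have hlt : |arg z / k| < Real.pi / k := by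
    rw [abs_div, abs_of_pos hk0]
    exact div_lt_div_of_pos_right h1 hk0
  have hle : Real.pi / k ≤ Real.pi := div_le_self Real.pi_pos.le (by exact_mod_cast hk)
  obtain ⟨h2, h3⟩ := abs_lt.1 (hlt.trans_le hle)
  have harg : arg (rt k z) = arg z / k := by
    have h := log_exp (x := log z / (k : ℂ)) (by rw [him]; exact h2) (by rw [him]; exact h3.le)
    rw [← him, ← h, log_im]; rfl
  refine ⟨mem_slitPlane_iff_arg.2 ⟨?_, exp_ne_zero _⟩, by rw [harg]; exact hlt⟩
  rw [harg]; exact h3.ne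

lemma pow_mem_slitPlane {k : ℕ} (hk : 1 ≤ k) {w : ℂ} (hw : w ∈ sector k) :
    w ^ k ∈ slitPlane ∧ rt k (w ^ k) = w := by
  have hk0 : (0 : ℝ) < k := by exact_mod_cast hk
  have hw0 := sector_ne_zero hw
  have he : w ^ k = exp ((k : ℂ) * log w) := by rw [exp_nat_mul, exp_log hw0]
  have him : ((k : ℂ) * log w).im = k * arg w := by simp [log_im]
  obtain ⟨h1, h2⟩ := abs_lt.1 hw.2
  rw [lt_div_iff₀ hk0] at h2
  rw [← neg_div, div_lt_iff₀ hk0] at h1
  have hlog : log (w ^ k) = (k : ℂ) * log w := by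
    rw [he]; exact log_exp (by rw [him]; linarith) (by rw [him]; linarith)
  refine ⟨mem_slitPlane_iff_arg.2 ⟨?_, pow_ne_zero _ hw0⟩, ?_⟩
  · rw [← log_im, hlog, him]; linarith
  · rw [rt, hlog, mul_div_cancel_left₀ _ (Nat.cast_ne_zero.2 (by omega)), exp_log hw0]

lemma not_neg_mem_sector_two {w : ℂ} (h : w ∈ sector 2) : -w ∉ sector 2 := by
  have pos : ∀ x : ℂ, x ∈ sector 2 → 0 < x.re := by
    intro x hx
    have hc : 0 < Real.cos (arg x) := Real.cos_pos_of_mem_Ioo
      ⟨(abs_lt.1 (by simpa using hx.2)).1, (abs_lt.1 (by simpa using hx.2)).2⟩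
    rw [cos_arg (sector_ne_zero hx), div_pos_iff_of_pos_right (norm_pos_iff.2 (sector_ne_zero hx))] at hc
    exact hc
  intro h'
  have h1 := pos w h
  have h2 := pos (-w) h'
  rw [neg_re] at h2
  linarith

lemma one_mem_sector {k : ℕ} (hk : 1 ≤ k) : (1 : ℂ) ∈ sector k := by
  have : (0 : ℝ) < k := by exact_mod_cast hk
  refine ⟨one_mem_slitPlane, ?_⟩
  simp only [arg_one, abs_zero]
  positivity

lemma contDiffAt_rt_comp {k : ℕ} {f : ℂ → ℂ} {t : ℂ} (h : f t ∈ slitPlane)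
    (hf : ContDiffAt ℂ ω f t) : ContDiffAt ℂ ω (fun x => rt k (f x)) t :=
  (contDiffAt_rt h).comp t hf

attribute [irreducible] rt

end Vale.Agent.P296.Geo
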