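import Vale.Agent.P296.Geometry.Root
import Vale.Agent.P296.Geometry.RepChart

/-!
Local parametrisations of the curve `u² = ±(σ^(6m) - 1)`, `v² = σ^(6m) + 1`, and the charts of
`X m` that they give.
-/

open Set Topology
open scoped ContDiff

noncomputable section

namespace Vale.Agent.P296.Geo

variable {m : ℕ}

/-- `(σ, u, v)`. -/
abbrev Pt : Type := ℂ × ℂ × ℂ

/-- The other point of a sign pair. -/
def flip (y : Pt) : Pt := (y.1, -y.2.1, -y.2.2)

/-- The sign in the equation of `u` when the coordinate `s b` is normalised to `1`. -/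
def eps (b : Fin 2) : ℂ := if b = 0 then 1 else -1

lemma eps_sq (b : Fin 2) : eps b ^ 2 = 1 := by unfold eps; split <;> simp

/-- The affine equations. -/
def OnCurve (m : ℕ) (b : Fin 2) (y : Pt) : Prop :=
  y.2.1 ^ 2 = eps b * (y.1 ^ (6 * m) - 1) ∧ y.2.2 ^ 2 = y.1 ^ (6 * m) + 1

lemma OnCurve.flip {b : Fin 2} {y : Pt} (h : OnCurve m b y) : OnCurve m b (flip y) := by
  simpa [OnCurve, Geo.flip] using h

/-- A parametrised piece of one sheet. -/
structure Sheet (m : ℕ) (b : Fin 2) where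
  D : Set ℂ
  isOpen_D : IsOpen D
  par : ℂ → Pt
  smooth_par : ContDiffOn ℂ ω par D
  O : Set Pt
  isOpen_O : IsOpen O
  coord : Pt → ℂ
  smooth_coord : ContDiffOn ℂ ω coord O
  disj : ∀ y ∈ O, flip y ∉ O
  left : ∀ t ∈ D, OnCurve m b (par t) ∧ par t ∈ O ∧ coord (par t) = t
  right : ∀ y, OnCurve m b y → y ∈ O → coord y ∈ D ∧ par (coord y) = y

lemma isOpen_preimage_slit {f : ℂ → ℂ} (hf : Continuous f) : IsOpen (f ⁻¹' Complex.slitPlane) :=
  Complex.isOpen_slitPlane.preimage hf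

lemma exists_sheet_regular {b : Fin 2} {y0 : Pt} (h : OnCurve m b y0)
    (hu : y0.2.1 ≠ 0) (hv : y0.2.2 ≠ 0) : ∃ S : Sheet m b, y0 ∈ S.O := by
  obtain ⟨hP, hQ⟩ := h
  refine ⟨{
    D := {t | eps b * (t ^ (6 * m) - 1) / y0.2.1 ^ 2 ∈ Complex.slitPlane} ∩
      {t | (t ^ (6 * m) + 1) / y0.2.2 ^ 2 ∈ Complex.slitPlane}
    isOpen_D := (isOpen_preimage_slit (by fun_prop)).inter (isOpen_preimage_slit (by fun_prop))
    par := fun t => (t, y0.2.1 * rt 2 (eps b * (t ^ (6 * m) - 1) / y0.2.1 ^ 2),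
      y0.2.2 * rt 2 ((t ^ (6 * m) + 1) / y0.2.2 ^ 2))
    smooth_par := ?_
    O := {y | y.2.1 / y0.2.1 ∈ sector 2} ∩ {y | y.2.2 / y0.2.2 ∈ sector 2}
    isOpen_O := ((isOpen_sector 2).preimage (by fun_prop)).inter
      ((isOpen_sector 2).preimage (by fun_prop))
    coord := fun y => y.1
    smooth_coord := contDiffOn_fst
    disj := ?_
    left := ?_
    right := ?_ }, ?_⟩
  · intro t ht
    refine (ContDiffAt.prodMk contDiffAt_id (ContDiffAt.prodMk ?_ ?_)).contDiffWithinAt
    · exact contDiffAt_const.mul (contDiffAt_rt_comp ht.1 (by fun_prop))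
    · exact contDiffAt_const.mul (contDiffAt_rt_comp ht.2 (by fun_prop))
  · intro y hy hy'
    have h1 : (flip y).2.1 / y0.2.1 ∈ sector 2 := hy'.1
    simp only [flip, neg_div] at h1
    exact not_neg_mem_sector_two hy.1 h1
  · intro t ht
    have h1 := rt_pow two_ne_zero (Complex.slitPlane_ne_zero ht.1)
    have h2 := rt_pow two_ne_zero (Complex.slitPlane_ne_zero ht.2)
    refine ⟨⟨?_, ?_⟩, ⟨?_, ?_⟩, rfl⟩
    · simp only []; rw [mul_pow, h1]; field_simp
    · simp only []; rw [mul_pow, h2]; field_simp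
    · show y0.2.1 * _ / y0.2.1 ∈ sector 2
      rw [mul_div_cancel_left₀ _ hu]; exact rt_mem_sector (by norm_num) ht.1
    · show y0.2.2 * _ / y0.2.2 ∈ sector 2
      rw [mul_div_cancel_left₀ _ hv]; exact rt_mem_sector (by norm_num) ht.2
  · intro y hy hyO
    have h1 := pow_mem_slitPlane (k := 2) (by norm_num) hyO.1
    have h2 := pow_mem_slitPlane (k := 2) (by norm_num) hyO.2
    rw [div_pow, hy.1] at h1
    rw [div_pow, hy.2] at h2
    refine ⟨⟨h1.1, h2.1⟩, ?_⟩
    simp only [h1.2, h2.2]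
    rw [mul_div_cancel₀ _ hu, mul_div_cancel₀ _ hv]
  · refine ⟨?_, ?_⟩
    · show y0.2.1 / y0.2.1 ∈ sector 2
      rw [div_self hu]; exact one_mem_sector (by norm_num)
    · show y0.2.2 / y0.2.2 ∈ sector 2
      rw [div_self hv]; exact one_mem_sector (by norm_num)

lemma exists_sheet_u_zero (hm : 1 ≤ m) {b : Fin 2} {y0 : Pt} (h : OnCurve m b y0)
    (hu : y0.2.1 = 0) : ∃ S : Sheet m b, y0 ∈ S.O := by
  obtain ⟨hP, hQ⟩ := h
  have he := eps_sq b
  rw [hu, zero_pow two_ne_zero, eq_comm, mul_eq_zero, sub_eq_zero] at hP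
  have hs : y0.1 ^ (6 * m) = 1 := hP.resolve_left fun e => by simp [e] at he
  have hs0 : y0.1 ≠ 0 := fun e => by simp [e, show (6 * m) ≠ 0 by omega] at hs
  have hv : y0.2.2 ≠ 0 := fun e => by rw [e, hs] at hQ; norm_num at hQ
  have hn : 1 ≤ 6 * m := by omega
  refine ⟨{
    D := {t | 1 + eps b * t ^ 2 ∈ Complex.slitPlane} ∩
      {t | (2 + eps b * t ^ 2) / y0.2.2 ^ 2 ∈ Complex.slitPlane}
    isOpen_D := (isOpen_preimage_slit (by fun_prop)).inter (isOpen_preimage_slit (by fun_prop))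
    par := fun t => (y0.1 * rt (6 * m) (1 + eps b * t ^ 2), t,
      y0.2.2 * rt 2 ((2 + eps b * t ^ 2) / y0.2.2 ^ 2))
    smooth_par := ?_
    O := {y | y.1 / y0.1 ∈ sector (6 * m)} ∩ {y | y.2.2 / y0.2.2 ∈ sector 2}
    isOpen_O := ((isOpen_sector (6 * m)).preimage (by fun_prop)).inter
      ((isOpen_sector 2).preimage (by fun_prop))
    coord := fun y => y.2.1
    smooth_coord := (contDiff_fst.comp contDiff_snd).contDiffOn
    disj := ?_
    left := ?_
    right := ?_ }, ?_⟩
  · intro t ht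
    refine (ContDiffAt.prodMk ?_ (ContDiffAt.prodMk contDiffAt_id ?_)).contDiffWithinAt
    · exact contDiffAt_const.mul (contDiffAt_rt_comp ht.1 (by fun_prop))
    · exact contDiffAt_const.mul (contDiffAt_rt_comp ht.2 (by fun_prop))
  · intro y hy hy'
    have h1 : (flip y).2.2 / y0.2.2 ∈ sector 2 := hy'.2
    simp only [flip, neg_div] at h1
    exact not_neg_mem_sector_two hy.2 h1
  · intro t ht
    have h1 := rt_pow (show 6 * m ≠ 0 by omega) (Complex.slitPlane_ne_zero ht.1)
    have h2 := rt_pow two_ne_zero (Complex.slitPlane_ne_zero ht.2)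
    refine ⟨⟨?_, ?_⟩, ⟨?_, ?_⟩, rfl⟩
    · simp only []; rw [mul_pow, hs, h1]; linear_combination (-t ^ 2) * he
    · simp only []; rw [mul_pow, mul_pow, hs, h1, h2]; field_simp; ring
    · show y0.1 * _ / y0.1 ∈ sector (6 * m)
      rw [mul_div_cancel_left₀ _ hs0]; exact rt_mem_sector hn ht.1
    · show y0.2.2 * _ / y0.2.2 ∈ sector 2
      rw [mul_div_cancel_left₀ _ hv]; exact rt_mem_sector (by norm_num) ht.2
  · intro y hy hyO
    have h1 := pow_mem_slitPlane hn hyO.1
    have h2 := pow_mem_slitPlane (k := 2) (by norm_num) hyO.2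
    have e1 : 1 + eps b * y.2.1 ^ 2 = y.1 ^ (6 * m) := by
      rw [hy.1]; linear_combination (y.1 ^ (6 * m) - 1) * he
    rw [div_pow, hs, div_one, ← e1] at h1
    rw [div_pow, hy.2, show y.1 ^ (6 * m) + 1 = 2 + eps b * y.2.1 ^ 2 by rw [← e1]; ring] at h2
    refine ⟨⟨h1.1, h2.1⟩, ?_⟩
    simp only [h1.2, h2.2]
    rw [mul_div_cancel₀ _ hs0, mul_div_cancel₀ _ hv]
  · refine ⟨?_, ?_⟩
    · show y0.1 / y0.1 ∈ sector (6 * m)
      rw [div_self hs0]; exact one_mem_sector hn
    · show y0.2.2 / y0.2.2 ∈ sector 2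
      rw [div_self hv]; exact one_mem_sector (by norm_num)

lemma exists_sheet_v_zero (hm : 1 ≤ m) {b : Fin 2} {y0 : Pt} (h : OnCurve m b y0)
    (hv : y0.2.2 = 0) : ∃ S : Sheet m b, y0 ∈ S.O := by
  obtain ⟨hP, hQ⟩ := h
  have he := eps_sq b
  have hs : y0.1 ^ (6 * m) = -1 := by rw [hv] at hQ; linear_combination -hQ
  have hs0 : y0.1 ≠ 0 := fun e => by simp [e, show (6 * m) ≠ 0 by omega] at hs
  have hu : y0.2.1 ≠ 0 := fun e => by
    rw [e, hs, zero_pow two_ne_zero] at hP
    have : eps b = 0 := by linear_combination (1 / 2 : ℂ) * hP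
    rw [this] at he; simp at he
  have hn : 1 ≤ 6 * m := by omega
  refine ⟨{
    D := {t | 1 - t ^ 2 ∈ Complex.slitPlane} ∩
      {t | eps b * (t ^ 2 - 2) / y0.2.1 ^ 2 ∈ Complex.slitPlane}
    isOpen_D := (isOpen_preimage_slit (by fun_prop)).inter (isOpen_preimage_slit (by fun_prop))
    par := fun t => (y0.1 * rt (6 * m) (1 - t ^ 2),
      y0.2.1 * rt 2 (eps b * (t ^ 2 - 2) / y0.2.1 ^ 2), t)
    smooth_par := ?_
    O := {y | y.1 / y0.1 ∈ sector (6 * m)} ∩ {y | y.2.1 / y0.2.1 ∈ sector 2}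
    isOpen_O := ((isOpen_sector (6 * m)).preimage (by fun_prop)).inter
      ((isOpen_sector 2).preimage (by fun_prop))
    coord := fun y => y.2.2
    smooth_coord := (contDiff_snd.comp contDiff_snd).contDiffOn
    disj := ?_
    left := ?_
    right := ?_ }, ?_⟩
  · intro t ht
    refine (ContDiffAt.prodMk ?_ (ContDiffAt.prodMk ?_ contDiffAt_id)).contDiffWithinAt
    · exact contDiffAt_const.mul (contDiffAt_rt_comp ht.1 (by fun_prop))
    · exact contDiffAt_const.mul (contDiffAt_rt_comp ht.2 (by fun_prop))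
  · intro y hy hy'
    have h1 : (flip y).2.1 / y0.2.1 ∈ sector 2 := hy'.2
    simp only [flip, neg_div] at h1
    exact not_neg_mem_sector_two hy.2 h1
  · intro t ht
    have h1 := rt_pow (show 6 * m ≠ 0 by omega) (Complex.slitPlane_ne_zero ht.1)
    have h2 := rt_pow two_ne_zero (Complex.slitPlane_ne_zero ht.2)
    refine ⟨⟨?_, ?_⟩, ⟨?_, ?_⟩, rfl⟩
    · simp only []; rw [mul_pow, mul_pow, hs, h1, h2]; field_simp; ring
    · simp only []; rw [mul_pow, hs, h1]; ring
    · show y0.1 * _ / y0.1 ∈ sector (6 * m)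
      rw [mul_div_cancel_left₀ _ hs0]; exact rt_mem_sector hn ht.1
    · show y0.2.1 * _ / y0.2.1 ∈ sector 2
      rw [mul_div_cancel_left₀ _ hu]; exact rt_mem_sector (by norm_num) ht.2
  · intro y hy hyO
    have h1 := pow_mem_slitPlane hn hyO.1
    have h2 := pow_mem_slitPlane (k := 2) (by norm_num) hyO.2
    have e1 : 1 - y.2.2 ^ 2 = y.1 ^ (6 * m) / y0.1 ^ (6 * m) := by rw [hy.2, hs]; ring
    rw [div_pow, ← e1] at h1
    rw [div_pow, hy.1, show y.1 ^ (6 * m) - 1 = y.2.2 ^ 2 - 2 by rw [hy.2]; ring] at h2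
    refine ⟨⟨h1.1, h2.1⟩, ?_⟩
    simp only [h1.2, h2.2]
    rw [mul_div_cancel₀ _ hs0, mul_div_cancel₀ _ hu]
  · refine ⟨?_, ?_⟩
    · show y0.1 / y0.1 ∈ sector (6 * m)
      rw [div_self hs0]; exact one_mem_sector hn
    · show y0.2.1 / y0.2.1 ∈ sector 2
      rw [div_self hu]; exact one_mem_sector (by norm_num)

lemma exists_sheet (hm : 1 ≤ m) {b : Fin 2} {y0 : Pt} (h : OnCurve m b y0) :
    ∃ S : Sheet m b, y0 ∈ S.O := by
  by_cases hu : y0.2.1 = 0
  · exact exists_sheet_u_zero hm h hu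
  by_cases hv : y0.2.2 = 0
  · exact exists_sheet_v_zero hm h hv
  exact exists_sheet_regular h hu hv

/-- The affine coordinates `(σ, u, v)` of a tuple. -/
def nrm (m : ℕ) (b : Fin 2) (t : Tup) : Pt :=
  (t.2.1 (1 - b) / t.2.1 b, t.2.2.1 / t.2.1 b ^ (3 * m), t.2.2.2 / t.2.1 b ^ (3 * m))

lemma onCurve_nrm (p : Rep m) {b : Fin 2} (hb : p.s b ≠ 0) : OnCurve m b (nrm m b p.tuple) := by
  fin_cases b <;>
  · simp only [OnCurve, nrm, Rep.tuple, div_pow, ← pow_mul, show 3 * m * 2 = 6 * m by ring, p.hu,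
      p.hv, eps]
    simp at hb ⊢
    constructor <;> field_simp <;> ring

lemma contDiffAt_nrm {b : Fin 2} {t : Tup} (hb : t.2.1 b ≠ 0) : ContDiffAt ℂ ω (nrm m b) t := by
  have h1 : ∀ i : Fin 2, ContDiffAt ℂ ω (fun t : Tup => t.2.1 i) t := fun i => by fun_prop
  exact ((h1 (1 - b)).div (h1 b) hb).prodMk
    (((by fun_prop : ContDiffAt ℂ ω (fun t : Tup => t.2.2.1) t).div ((h1 b).pow _)
      (pow_ne_zero _ hb)).prodMk
    ((by fun_prop : ContDiffAt ℂ ω (fun t : Tup => t.2.2.2) t).div ((h1 b).pow _)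
      (pow_ne_zero _ hb)))

/-- `(z, t)` as a point of the model space. -/
def pair (z t : ℂ) : Cn 2 := z • EuclideanSpace.single 0 1 + t • EuclideanSpace.single 1 1

@[simp] lemma pair_zero (z t : ℂ) : (pair z t) 0 = z := by simp [pair]

@[simp] lemma pair_one (z t : ℂ) : (pair z t) 1 = t := by simp [pair]

lemma pair_eta (x : Cn 2) : pair (x 0) (x 1) = x := by
  ext i; fin_cases i <;> simp

/-- A point used as a filler. -/
def filler (m : ℕ) : Rep m where
  z := fun _ => 1
  s := fun _ => 1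
  u := 0
  v := rt 2 2
  hz := fun h => one_ne_zero (congrFun h 0)
  hs := fun h => one_ne_zero (congrFun h 0)
  hu := by simp
  hv := by rw [rt_pow two_ne_zero two_ne_zero]; simp; norm_num

variable {b : Fin 2}

lemma norm_eqs {y : Pt} (h : OnCurve m b y) :
    y.2.1 ^ 2 = (if (1 : Fin 2) = b then 1 else y.1) ^ (6 * m)
        - (if (0 : Fin 2) = b then 1 else y.1) ^ (6 * m) ∧
    y.2.2 ^ 2 = (if (1 : Fin 2) = b then 1 else y.1) ^ (6 * m)
        + (if (0 : Fin 2) = b then 1 else y.1) ^ (6 * m) := by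
  obtain ⟨h1, h2⟩ := h
  fin_cases b <;> simp [eps] at h1 h2 ⊢ <;> rw [h1, h2] <;> constructor <;> ring

open Classical in
/-- The representative with `z a = 1`, `s b = 1`. -/
def affineRep (a : Fin 2) (z : ℂ) (y : Pt) (h : OnCurve m b y) : Rep m where
  z := fun i => if i = a then 1 else z
  s := fun i => if i = b then 1 else y.1
  u := y.2.1
  v := y.2.2
  hz := fun e => by simpa using congrFun e a
  hs := fun e => by simpa using congrFun e b
  hu := (norm_eqs h).1
  hv := (norm_eqs h).2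

lemma affineRep_rel (p : Rep m) {a : Fin 2} (ha : p.z a ≠ 0) (hb : p.s b ≠ 0) {e : ℂ}
    (he : e ^ 2 = 1) {y : Pt} (h : OnCurve m b y)
    (hy : y = ((nrm m b p.tuple).1, e * (nrm m b p.tuple).2.1, e * (nrm m b p.tuple).2.2)) :
    Rep.Rel (affineRep a (p.z (1 - a) / p.z a) y h) p := by
  have he' : e * e = 1 := by rw [← sq]; exact he
  refine ⟨p.z a, p.s b, e, ha, hb, he, ?_, ?_, ?_, ?_⟩
  · funext i
    fin_cases a <;> fin_cases i <;> simp [affineRep] at ha ⊢ <;> field_simp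
  · funext i
    subst hy
    fin_cases b <;> fin_cases i <;> simp [affineRep, nrm, Rep.tuple] at hb ⊢ <;> field_simp
  · subst hy
    simp only [affineRep, nrm, Rep.tuple]
    rw [show e * p.s b ^ (3 * m) * (e * (p.u / p.s b ^ (3 * m)))
      = (e * e) * (p.u / p.s b ^ (3 * m) * p.s b ^ (3 * m)) by ring, he', one_mul,
      div_mul_cancel₀ _ (pow_ne_zero _ hb)]
  · subst hy
    simp only [affineRep, nrm, Rep.tuple]
    rw [show e * p.s b ^ (3 * m) * (e * (p.v / p.s b ^ (3 * m)))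
      = (e * e) * (p.v / p.s b ^ (3 * m) * p.s b ^ (3 * m)) by ring, he', one_mul,
      div_mul_cancel₀ _ (pow_ne_zero _ hb)]

namespace Sheet

variable (S : Sheet m b)

open Classical in
/-- The coordinate along the sheet, on either point of a sign pair. -/
def symCoord (y : Pt) : ℂ := if y ∈ S.O then S.coord y else S.coord (flip y)

lemma contDiffAt_symCoord {y : Pt} (h : y ∈ S.O ∨ flip y ∈ S.O) :
    ContDiffAt ℂ ω S.symCoord y := by
  have hf : ContDiff ℂ ω flip := by unfold flip; fun_prop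
  rcases h with h | h
  · refine (S.smooth_coord.contDiffAt (S.isOpen_O.mem_nhds h)).congr_of_eventuallyEq ?_
    filter_upwards [S.isOpen_O.mem_nhds h] with x hx
    simp [symCoord, hx]
  · refine ((S.smooth_coord.contDiffAt (S.isOpen_O.mem_nhds h)).comp y hf.contDiffAt).congr_of_eventuallyEq ?_
    filter_upwards [(S.isOpen_O.preimage hf.continuous).mem_nhds h] with x hx
    have : x ∉ S.O := fun h' => S.disj x h' hx
    simp [symCoord, this]

open Classical in
/-- The chart of `X m` given by a sheet and the affine coordinate `z (1-a) / z a`. -/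
def repChart (a : Fin 2) : RepChart m where
  D := {x | x 1 ∈ S.D}
  isOpen_D := S.isOpen_D.preimage (by fun_prop)
  O := {t | t.1 a ≠ 0 ∧ t.2.1 b ≠ 0} ∩ {t | nrm m b t ∈ S.O ∨ flip (nrm m b t) ∈ S.O}
  isOpen_O := by
    have hopen : IsOpen {t : Tup | t.1 a ≠ 0 ∧ t.2.1 b ≠ 0} :=
      (isOpen_ne.preimage (f := fun t : Tup => t.1 a) (by fun_prop)).inter
        (isOpen_ne.preimage (f := fun t : Tup => t.2.1 b) (by fun_prop))
    have hc : ContinuousOn (nrm m b) {t : Tup | t.1 a ≠ 0 ∧ t.2.1 b ≠ 0} :=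
      fun t ht => (contDiffAt_nrm (m := m) ht.2).continuousAt.continuousWithinAt
    have hf : Continuous flip := by unfold flip; fun_prop
    exact hc.isOpen_inter_preimage hopen (S.isOpen_O.union (S.isOpen_O.preimage hf))
  G := fun t => pair (t.1 (1 - a) / t.1 a) (S.symCoord (nrm m b t))
  smooth_G := by
    rintro t ⟨⟨ha, hb⟩, hO⟩
    refine ContDiffAt.contDiffWithinAt ?_
    unfold pair
    exact (((by fun_prop : ContDiffAt ℂ ω (fun t : Tup => t.1 (1 - a)) t).div
      (by fun_prop : ContDiffAt ℂ ω (fun t : Tup => t.1 a) t) ha).smul contDiffAt_const).add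
      (((S.contDiffAt_symCoord hO).comp t (contDiffAt_nrm hb)).smul contDiffAt_const)
  L := fun x => if h : OnCurve m b (S.par (x 1)) then affineRep a (x 0) (S.par (x 1)) h else filler m
  smooth_L := by
    intro x hx
    refine ContDiffAt.contDiffWithinAt ?_
    have hp : ContDiffAt ℂ ω (fun x : Cn 2 => S.par (x 1)) x :=
      (S.smooth_par.contDiffAt (S.isOpen_D.mem_nhds hx)).comp x (by fun_prop)
    have h : ContDiffAt ℂ ω (fun x : Cn 2 =>
        ((fun i => if i = a then 1 else x 0, fun i => if i = b then 1 else (S.par (x 1)).1,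
          (S.par (x 1)).2.1, (S.par (x 1)).2.2) : Tup)) x := by
      refine (contDiffAt_pi.2 fun i => ?_).prodMk ((contDiffAt_pi.2 fun i => ?_).prodMk
        (hp.snd.fst.prodMk hp.snd.snd))
      · by_cases hi : i = a <;> simp only [hi, if_true, if_false] <;> fun_prop
      · by_cases hi : i = b
        · simp only [hi, if_true]; exact contDiffAt_const
        · simp only [hi, if_false]; exact hp.fst
    refine h.congr_of_eventuallyEq ?_
    filter_upwards [(S.isOpen_D.preimage (by fun_prop : Continuous fun x : Cn 2 => x 1)).mem_nhds hx]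
      with y hy
    rw [dif_pos (S.left _ hy).1]
    rfl
  inv := by
    rintro p q ⟨α, β, e, hα, hβ, he, hz, hs, hu, hv⟩ ⟨⟨hpa, hpb⟩, hpO⟩
    have hn : nrm m b q.tuple
        = ((nrm m b p.tuple).1, e * (nrm m b p.tuple).2.1, e * (nrm m b p.tuple).2.2) := by
      simp only [nrm, Rep.tuple, hs, hu, hv, Pi.smul_apply, smul_eq_mul, mul_pow]
      refine Prod.ext ?_ (Prod.ext ?_ ?_) <;> simp only []
      · rw [mul_div_mul_left _ _ hβ]
      · field_simp
      · field_simp
    have hz' : q.tuple.1 (1 - a) / q.tuple.1 a = p.tuple.1 (1 - a) / p.tuple.1 a := by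
      simp only [Rep.tuple, hz, Pi.smul_apply, smul_eq_mul]
      rw [mul_div_mul_left _ _ hα]
    refine ⟨⟨⟨?_, ?_⟩, ?_⟩, ?_⟩
    · simp only [Rep.tuple, hz, Pi.smul_apply, smul_eq_mul]; exact mul_ne_zero hα hpa
    · simp only [Rep.tuple, hs, Pi.smul_apply, smul_eq_mul]; exact mul_ne_zero hβ hpb
    · rcases sq_eq_one_iff.1 he with rfl | rfl
      · simpa [hn, flip] using hpO
      · simpa [hn, flip, or_comm] using hpO
    · simp only [hz']
      congr 1
      rcases sq_eq_one_iff.1 he with rfl | rfl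
      · simp [hn]
      · have : nrm m b q.tuple = flip (nrm m b p.tuple) := by rw [hn]; simp [flip]
        rw [this]
        rcases hpO with h | h
        · have h' := S.disj _ h
          simp only [flip] at h'
          simp [symCoord, h, h', flip]
        · have h' : nrm m b p.tuple ∉ S.O := fun h' => S.disj _ h' h
          simp [symCoord, h, h']
  left := by
    intro x hx
    obtain ⟨hc, hO, hco⟩ := S.left _ hx
    rw [dif_pos hc]
    have hn : nrm m b (affineRep a (x 0) (S.par (x 1)) hc).tuple = S.par (x 1) := by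
      simp only [nrm, Rep.tuple, affineRep, if_true, one_pow, div_one]
      refine Prod.ext ?_ rfl
      fin_cases b <;> simp
    refine ⟨⟨⟨?_, ?_⟩, Or.inl (hn.symm ▸ hO)⟩, ?_⟩
    · simp [Rep.tuple, affineRep]
    · simp [Rep.tuple, affineRep]
    · simp only [symCoord, hn, if_pos hO, hco]
      have : (1 : Fin 2) - a ≠ a := by fin_cases a <;> simp
      simp only [Rep.tuple, affineRep, if_true, if_neg this, div_one]
      exact pair_eta x
  right := by
    rintro p ⟨⟨ha, hb⟩, hO⟩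
    have hc := onCurve_nrm p hb
    obtain ⟨e, he, y, hy, hyO, hye⟩ : ∃ e : ℂ, e ^ 2 = 1 ∧ ∃ y, y = ((nrm m b p.tuple).1,
        e * (nrm m b p.tuple).2.1, e * (nrm m b p.tuple).2.2) ∧ y ∈ S.O ∧
        S.symCoord (nrm m b p.tuple) = S.coord y := by
      rcases hO with h | h
      · refine ⟨1, one_pow 2, _, rfl, by simpa using h, by simp [symCoord, h]⟩
      · have h' : nrm m b p.tuple ∉ S.O := fun h' => S.disj _ h' h
        exact ⟨-1, by norm_num, _, rfl, by simpa [flip] using h, by simp [symCoord, h', flip]⟩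
    have hyc : OnCurve m b y := by subst hy; simp only [OnCurve, mul_pow, he, one_mul]; exact hc
    obtain ⟨hD, hpar⟩ := S.right y hyc hyO
    refine ⟨by simpa [hye] using hD, ?_⟩
    simp only [pair_one, pair_zero, hye]
    rw [dif_pos (hpar.symm ▸ hyc)]
    refine pt_eq_iff.2 ?_
    have key := affineRep_rel p ha hb he hyc hy
    convert key using 2
    rfl

end Sheet

lemma exists_chart (hm : 1 ≤ m) (p : Rep m) : ∃ c : RepChart m, p.tuple ∈ c.O := by
  obtain ⟨a, ha⟩ : ∃ a, p.z a ≠ 0 := Function.ne_iff.1 p.hz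
  obtain ⟨b, hb⟩ : ∃ b, p.s b ≠ 0 := Function.ne_iff.1 p.hs
  obtain ⟨S, hS⟩ := exists_sheet hm (onCurve_nrm p hb)
  exact ⟨S.repChart a, ⟨ha, hb⟩, Or.inl hS⟩

end Vale.Agent.P296.Geo
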